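import Vale.Agent.P147.Flip.Full.Pins

/-!
# Good scales exist

The entropy is at most linear in the logarithm of the number of blocks, so the gains of all scales
up to a dyadic one sum to a multiple of their number, and most of them are bounded. The bands of
far apart scales are disjoint, so their sum is bounded, while it would be at least a multiple of
the harmonic series if every scale with bounded gain had a large band.
-/

namespace Vale.Agent.P147.Flip.Full

open MeasureTheory Filter Topology Vale.Agent.P147.Balanced Vale.Agent.P147.Linear Vale.Agent.P147.Flip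
open scoped ENNReal

variable {d : ℕ} [Nonempty (Fin d)] {μ : Measure (Step d → ℝ)} [IsProbabilityMeasure μ]
  {l : Fin d → ℝ}

omit [Nonempty (Fin d)] in
lemma Up_anti (l : Fin d → ℝ) {k k' : ℝ} (h : k ≤ k') : Up l k' ⊆ Up l k :=
  fun X ⟨m, h1, h2⟩ => ⟨m, h1, by linarith⟩

omit [Nonempty (Fin d)] in
lemma Up_subset_UpS (l : Fin d → ℝ) {r k : ℝ} (h : r < k) : Up l k ⊆ UpS l r :=
  fun X ⟨m, h1, h2⟩ => ⟨m, h1, by linarith⟩

lemma band_add_le (l : Fin d → ℝ) {a b a' : ℝ} (h : a ≤ a') (h' : b < a') :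
    band μ l a b + ann μ (Up l a') ≤ ann μ (Up l a) := by
  unfold band
  rw [ann_eq μ ((measurableSet_Up l a).diff (measurableSet_UpS l b)),
    ann_eq μ (measurableSet_Up l a'), ann_eq μ (measurableSet_Up l a),
    ← measure_union (Set.disjoint_left.2 fun X hX hX' => hX.2 (Up_subset_UpS l h' hX'))
      (measurableSet_Up l a')]
  exact measure_mono (Set.union_subset Set.sdiff_subset (Up_anti l h))

lemma sum_band_le {a b : ℝ} (ha : 0 < a) {D : ℕ} (hD : b < a * 2 ^ D) (M : ℕ) :
    ∑ P ∈ Finset.range M, band μ l (a * 2 ^ P) (b * 2 ^ P) ≤ (D : ℝ≥0∞) := by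
  set f : ℕ → ℝ≥0∞ := fun P => ann μ (Up l (a * 2 ^ P)) with hf
  have h1 : ∀ P, f P ≤ 1 := fun P => by
    simp only [hf]; rw [ann_eq μ (measurableSet_Up l _)]; exact prob_le_one
  have key : ∀ M, (∑ P ∈ Finset.range M, band μ l (a * 2 ^ P) (b * 2 ^ P)) +
      ∑ j ∈ Finset.range D, f (M + j) ≤ ∑ j ∈ Finset.range D, f j := by
    intro M
    induction M with
    | zero => simp
    | succ M ih =>
      have hb : band μ l (a * 2 ^ M) (b * 2 ^ M) + f (M + D) ≤ f M := by
        refine band_add_le l ?_ ?_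
        · gcongr <;> [norm_num; omega]
        · rw [pow_add, mul_comm ((2 : ℝ) ^ M), ← mul_assoc]
          gcongr
      have hs : (∑ j ∈ Finset.range D, f (M + 1 + j)) + f M =
          (∑ j ∈ Finset.range D, f (M + j)) + f (M + D) := by
        rw [← Finset.sum_range_succ, Finset.sum_range_succ', add_zero]
        simp only [add_assoc, add_comm 1]
      refine ENNReal.le_of_add_le_add_right (a := f M)
        (ne_top_of_le_ne_top ENNReal.one_ne_top (h1 M)) ?_
      rw [Finset.sum_range_succ, add_assoc _ _ (f M), hs]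
      calc _ = ((∑ P ∈ Finset.range M, band μ l (a * 2 ^ P) (b * 2 ^ P)) +
            ∑ j ∈ Finset.range D, f (M + j)) +
            (band μ l (a * 2 ^ M) (b * 2 ^ M) + f (M + D)) := by ring
        _ ≤ _ := add_le_add ih hb
  calc _ ≤ (∑ P ∈ Finset.range M, band μ l (a * 2 ^ P) (b * 2 ^ P)) +
        ∑ j ∈ Finset.range D, f (M + j) := le_self_add
    _ ≤ ∑ j ∈ Finset.range D, f j := key M
    _ ≤ ∑ _j ∈ Finset.range D, 1 := Finset.sum_le_sum fun j _ => h1 j
    _ = D := by simp

omit [IsProbabilityMeasure μ] in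
lemma sum_gain_le (hg : GainPin μ l) (he : EntPin μ l) (hq : annM μ (Good l) ≠ 0) :
    ∃ A : ℝ, 0 < A ∧ ∀ M, 5 ≤ M →
      ∑ Q ∈ Finset.range M, gain μ l (2 ^ Q) (2 * 2 ^ (Q + 3)) ≤ ENNReal.ofReal (A * M) := by
  obtain ⟨C, hC, hent⟩ := he hq
  set e : ℕ → ℝ≥0∞ := fun k => ent (pT μ l (2 ^ k)) with he'
  have hek : ∀ k : ℕ, e k ≤ ENNReal.ofReal (C * (k + 2)) := fun k => by
    refine (hent (2 ^ k)).trans (ENNReal.ofReal_le_ofReal (mul_le_mul_of_nonneg_left ?_ hC))
    have h2 : (1 : ℝ) + ((2 ^ k : ℕ) : ℝ) ≤ 2 ^ (k + 1) := by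
      push_cast
      rw [pow_succ]
      linarith [one_le_pow₀ (one_le_two : (1 : ℝ) ≤ 2) (n := k)]
    have h3 := Real.log_le_log (by positivity) h2
    rw [Real.log_pow] at h3
    push_cast at h3 ⊢
    nlinarith [Real.log_two_lt_d9]
  have key : ∀ M, (∑ Q ∈ Finset.range M, gain μ l (2 ^ Q) (2 * 2 ^ (Q + 3))) +
      (e 0 + e 1 + e 2 + e 3) ≤ (M : ℝ≥0∞) + (e M + e (M + 1) + e (M + 2) + e (M + 3)) := by
    intro M
    induction M with
    | zero => simp
    | succ M ih =>
      have h4 : 2 * 2 ^ (M + 3) = 2 ^ (M + 4) := by ring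
      have hM := hg hq (2 ^ M) (2 * 2 ^ (M + 3))
        (by rw [h4]; exact Nat.pow_le_pow_right two_pos (by omega))
      rw [Finset.sum_range_succ, Nat.cast_succ]
      calc _ = ((∑ Q ∈ Finset.range M, gain μ l (2 ^ Q) (2 * 2 ^ (Q + 3))) +
            (e 0 + e 1 + e 2 + e 3)) + gain μ l (2 ^ M) (2 * 2 ^ (M + 3)) := by ring
        _ ≤ (M : ℝ≥0∞) + (e M + e (M + 1) + e (M + 2) + e (M + 3)) +
            gain μ l (2 ^ M) (2 * 2 ^ (M + 3)) := by gcongr
        _ = (M : ℝ≥0∞) + (e (M + 1) + e (M + 2) + e (M + 3)) +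
            (gain μ l (2 ^ M) (2 * 2 ^ (M + 3)) + e M) := by ring
        _ ≤ (M : ℝ≥0∞) + (e (M + 1) + e (M + 2) + e (M + 3)) + (e (M + 4) + 1) := by
          refine add_le_add le_rfl ?_
          simpa only [he', h4] using hM
        _ = _ := by simp only [show M + 1 + 1 = M + 2 by omega, show M + 1 + 2 = M + 3 by omega,
              show M + 1 + 3 = M + 4 by omega]; ring
  refine ⟨1 + 8 * C, by positivity, fun M hM => le_self_add.trans ((key M).trans ?_)⟩
  have hM' : (5 : ℝ) ≤ M := by exact_mod_cast hM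
  calc (M : ℝ≥0∞) + (e M + e (M + 1) + e (M + 2) + e (M + 3))
      ≤ ENNReal.ofReal M + (ENNReal.ofReal (C * (M + 2)) + ENNReal.ofReal (C * ((M + 1 : ℕ) + 2)) +
          ENNReal.ofReal (C * ((M + 2 : ℕ) + 2)) + ENNReal.ofReal (C * ((M + 3 : ℕ) + 2))) := by
        rw [ENNReal.ofReal_natCast]; gcongr <;> apply hek
    _ ≤ _ := by
        rw [← ENNReal.ofReal_add (by positivity) (by positivity),
          ← ENNReal.ofReal_add (by positivity) (by positivity),
          ← ENNReal.ofReal_add (by positivity) (by positivity),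
          ← ENNReal.ofReal_add (by positivity) (by positivity)]
        refine ENNReal.ofReal_le_ofReal ?_
        push_cast
        nlinarith

/-- Good scales exist. -/
theorem choosePin (hg : GainPin μ l) (he : EntPin μ l) : ChoosePin μ l := by
  classical
  intro hq
  obtain ⟨A, hA, hsum⟩ := sum_gain_le hg he hq
  refine ⟨8 * A, by positivity, fun η a b hη ha hab => ?_⟩
  by_contra hno
  obtain ⟨P₀, hP₀⟩ := eventually_atTop.1 (not_frequently.1 hno)
  set j₀ : ℕ := P₀ + 3 with hj₀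
  obtain ⟨D, hD⟩ := pow_unbounded_of_one_lt (b / a) (one_lt_two : (1 : ℝ) < 2)
  have hD' : b < a * 2 ^ D := by rw [div_lt_iff₀ ha] at hD; linarith
  set β : ℕ → ℝ := fun P => (band μ l (a * 2 ^ P) (b * 2 ^ P)).toReal with hβ
  have hβne : ∀ P, band μ l (a * 2 ^ P) (b * 2 ^ P) ≠ ⊤ := fun P => by
    unfold band
    rw [ann_eq μ ((measurableSet_Up l _).diff (measurableSet_UpS l _))]
    exact measure_ne_top _ _
  have hβsum : ∀ M, ∑ P ∈ Finset.range M, β P ≤ D := fun M => by
    rw [← ENNReal.toReal_sum fun P _ => hβne P]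
    exact ENNReal.toReal_le_of_le_ofReal (Nat.cast_nonneg D)
      (by rw [ENNReal.ofReal_natCast]; exact sum_band_le ha hD' M)
  have hblock : ∀ j, j₀ ≤ j → η / (4 * (j + 1)) ≤ ∑ P ∈ Finset.Ico (2 ^ j) (2 ^ (j + 1)), β P := by
    intro j hj
    have hj' : j < 2 ^ j := Nat.lt_two_pow_self
    have h8 : 2 ^ 3 ≤ 2 ^ j := Nat.pow_le_pow_right two_pos (by omega)
    have hsucc : 2 ^ (j + 1) = 2 * 2 ^ j := by ring
    set I := Finset.Ico (2 ^ j) (2 ^ (j + 1)) with hI
    set bad := I.filter fun P => ENNReal.ofReal (8 * A) < gain μ l (2 ^ P / 8) (2 * 2 ^ P) with hbad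
    have hbad4 : (bad.card : ℝ) ≤ 2 ^ j / 4 := by
      have h : (bad.card : ℝ≥0∞) * ENNReal.ofReal (8 * A) ≤
          ENNReal.ofReal (A * (2 ^ (j + 1) : ℕ)) := by
        refine le_trans ?_ (hsum (2 ^ (j + 1)) (by omega))
        rw [← nsmul_eq_mul]
        refine (Finset.card_nsmul_le_sum _ (fun P => gain μ l (2 ^ P / 8) (2 * 2 ^ P)) _
          fun P hP => (Finset.mem_filter.1 hP).2.le).trans ?_
        calc _ ≤ ∑ P ∈ Finset.Ico 3 (3 + 2 ^ (j + 1)), gain μ l (2 ^ P / 8) (2 * 2 ^ P) := by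
              refine Finset.sum_le_sum_of_subset fun P hP => ?_
              simp only [hbad, hI, Finset.mem_filter, Finset.mem_Ico] at hP ⊢
              omega
          _ = _ := by
              rw [Finset.sum_Ico_eq_sum_range, Nat.add_sub_cancel_left]
              refine Finset.sum_congr rfl fun Q _ => ?_
              rw [add_comm 3 Q, pow_add 2 Q 3]
              norm_num
      rw [← ENNReal.ofReal_natCast bad.card, ← ENNReal.ofReal_mul (Nat.cast_nonneg _),
        ENNReal.ofReal_le_ofReal_iff (by positivity)] at h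
      push_cast at h
      rw [pow_succ] at h
      nlinarith
    have hgood : ∀ P ∈ I \ bad, η / (2 * 2 ^ j * (j + 1)) ≤ β P := by
      intro P hP
      obtain ⟨hPI, hPb⟩ := Finset.mem_sdiff.1 hP
      have hP' := Finset.mem_Ico.1 hPI
      have hlog : Nat.log 2 P = j := Nat.log_eq_of_pow_le_of_lt_pow hP'.1 hP'.2
      have hn := fun h => hP₀ P (by omega)
        ⟨not_lt.1 fun hlt => hPb (Finset.mem_filter.2 ⟨hPI, hlt⟩), h⟩
      rw [hlog] at hn
      replace hn := (ENNReal.ofReal_lt_iff_lt_toReal hη.le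
        (ENNReal.mul_ne_top (ENNReal.mul_ne_top (by simp) (by simp)) (hβne P))).1
        (not_le.1 fun h => hn h)
      rw [ENNReal.toReal_mul, ENNReal.toReal_mul, ENNReal.toReal_natCast,
        ENNReal.toReal_natCast] at hn
      push_cast at hn
      rw [div_le_iff₀ (by positivity)]
      have hP2 : (P : ℝ) ≤ 2 * 2 ^ j := by
        have : P ≤ 2 * 2 ^ j := by omega
        exact_mod_cast this
      calc η ≤ (P : ℝ) * (j + 1) * β P := hn.le
        _ ≤ 2 * 2 ^ j * (j + 1) * β P := by gcongr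
        _ = _ := by ring
    have hcard : ((I \ bad).card : ℝ) = 2 ^ j - bad.card := by
      rw [Finset.cast_card_sdiff (Finset.filter_subset _ _), hI, Nat.card_Ico,
        show 2 ^ (j + 1) - 2 ^ j = 2 ^ j by omega]
      push_cast
      rfl
    refine le_trans ?_ ((Finset.card_nsmul_le_sum _ β _ hgood).trans
      (Finset.sum_le_sum_of_subset_of_nonneg Finset.sdiff_subset
        fun _ _ _ => ENNReal.toReal_nonneg))
    rw [nsmul_eq_mul, hcard]
    calc η / (4 * (j + 1)) = 2 ^ j / 2 * (η / (2 * 2 ^ j * (j + 1))) := by field_simp; ring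
      _ ≤ _ := by gcongr; nlinarith [pow_pos (two_pos : (0 : ℝ) < 2) j]
  have hIco : ∀ M, j₀ ≤ M → ∑ j ∈ Finset.Ico j₀ M, η / (4 * (j + 1)) ≤
      ∑ P ∈ Finset.Ico (2 ^ j₀) (2 ^ M), β P := by
    intro M hM
    induction M, hM using Nat.le_induction with
    | base => simp
    | succ M hM ih =>
      rw [Finset.sum_Ico_succ_top hM, ← Finset.sum_Ico_consecutive β
        (Nat.pow_le_pow_right two_pos hM) (Nat.pow_le_pow_right two_pos (Nat.le_succ M))]
      exact add_le_add ih (hblock M hM)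
  set S : ℝ := ∑ j ∈ Finset.range j₀, 1 / ((j : ℝ) + 1) with hS
  obtain ⟨M, hM1, hM2⟩ := ((Real.tendsto_sum_range_one_div_nat_succ_atTop.eventually
    (eventually_gt_atTop (S + 4 * D / η))).and (eventually_ge_atTop j₀)).exists
  rw [← Finset.sum_range_add_sum_Ico _ hM2, ← hS] at hM1
  have h1 : ∑ j ∈ Finset.Ico j₀ M, 1 / ((j : ℝ) + 1) ≤ 4 * D / η := by
    rw [le_div_iff₀ hη, Finset.sum_mul]
    have h2 := (hIco M hM2).trans ((Finset.sum_le_sum_of_subset_of_nonneg
      (fun P hP => Finset.mem_range.2 (Finset.mem_Ico.1 hP).2)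
      fun _ _ _ => ENNReal.toReal_nonneg).trans (hβsum (2 ^ M)))
    calc ∑ j ∈ Finset.Ico j₀ M, 1 / ((j : ℝ) + 1) * η
        = 4 * ∑ j ∈ Finset.Ico j₀ M, η / (4 * (j + 1)) := by
          rw [Finset.mul_sum]; exact Finset.sum_congr rfl fun j _ => by field_simp
      _ ≤ 4 * D := by linarith
  linarith

end Vale.Agent.P147.Flip.Full
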