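import Vale.Agent.P147.Flip.Full.Pins
import Vale.Agent.P147.Flip.Cone
import Vale.Agent.P147.Flip.Disjoint

/-!
# The entropy of the displacement of several blocks

It grows at most logarithmically, as a block has a finite moment of order one half; the likelihood
gain from an independent part of the displacement is at most the increase of the entropy plus one.
-/

namespace Vale.Agent.P147.Flip.Full

open MeasureTheory Filter Topology Set Vale.Agent.P147.Balanced Vale.Agent.P147.Linear
  Vale.Agent.P147.Flip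
open scoped ENNReal

variable {d : ℕ}

/-- Gibbs' inequality for one atom, with the positive part of the logarithmic ratio. -/
lemma ratio_add_negMulLog_le {a b : ℝ} (ha : 0 ≤ a) (ha1 : a ≤ 1) (hb : 0 < b) (hb1 : b ≤ 1) :
    ENNReal.ofReal a * ENNReal.ofReal (Real.log (a / b)) + ENNReal.ofReal (Real.negMulLog a) ≤
      ENNReal.ofReal a * ENNReal.ofReal (-Real.log b) + ENNReal.ofReal b := by
  rcases eq_or_lt_of_le ha with rfl | ha'
  · simp
  have h1 : 0 ≤ Real.negMulLog a := Real.negMulLog_nonneg ha ha1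
  have h2 : 0 ≤ -Real.log b := neg_nonneg.2 (Real.log_nonpos hb.le hb1)
  have hnl : Real.negMulLog a = -(a * Real.log a) := by rw [Real.negMulLog]; ring
  have h3 : Real.log (a / b) = Real.log a - Real.log b := Real.log_div ha'.ne' hb.ne'
  rw [← ENNReal.ofReal_mul ha, ← ENNReal.ofReal_mul ha,
    ← ENNReal.ofReal_add (mul_nonneg ha h2) hb.le]
  rcases le_total 0 (Real.log (a / b)) with h | h
  · rw [← ENNReal.ofReal_add (mul_nonneg ha h) h1]
    refine ENNReal.ofReal_le_ofReal ?_
    rw [hnl, h3]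
    linarith
  · rw [ENNReal.ofReal_of_nonpos (mul_nonpos_of_nonneg_of_nonpos ha h), zero_add]
    refine ENNReal.ofReal_le_ofReal ?_
    have h4 := mul_le_mul_of_nonneg_left (Real.log_le_sub_one_of_pos (div_pos hb ha')) ha
    rw [Real.log_div hb.ne' ha'.ne', mul_sub, mul_sub, mul_one,
      mul_div_cancel₀ b ha'.ne'] at h4
    rw [hnl]
    linarith

lemma tsum_inv_sq_ne_top :
    ∑' n : ℤ, ENNReal.ofReal (((1 + |(n : ℝ)|) ^ 2)⁻¹) ≠ ⊤ := by
  have h : Summable fun n : ℕ => ((1 + (n : ℝ)) ^ 2)⁻¹ := by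
    have h0 := (summable_nat_add_iff (f := fun n : ℕ => ((n : ℝ) ^ 2)⁻¹) 1).2
      (Real.summable_nat_pow_inv.2 (by norm_num))
    refine h0.congr fun n => ?_
    push_cast
    ring_nf
  have hz : Summable fun n : ℤ => ((1 + |(n : ℝ)|) ^ 2)⁻¹ := by
    refine Summable.of_nat_of_neg ?_ ?_
    · exact h.congr fun n => by simp
    · exact h.congr fun n => by simp
  exact hz.tsum_ofReal_ne_top

lemma tsum_prod_coord (f : ℤ → ℝ≥0∞) :
    ∀ n : ℕ, ∑' v : Fin n → ℤ, ∏ c, f (v c) = (∑' a, f a) ^ n := by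
  intro n
  induction n with
  | zero => simp
  | succ n ih =>
    rw [← (Fin.consEquiv fun _ : Fin (n + 1) => ℤ).tsum_eq, ENNReal.tsum_prod', pow_succ',
      ← ENNReal.tsum_mul_right]
    refine tsum_congr fun a => ?_
    rw [← ih, ← ENNReal.tsum_mul_left]
    refine tsum_congr fun w => ?_
    simp [Fin.prod_univ_succ]

lemma blockT_add {l : Fin d → ℝ} (k T : ℕ) (X : ℕ → Site d) :
    blockT l (k + T) X = blockT l k X + blockT l T ((nextB l)^[k] X) := by
  simp only [blockT, Finset.sum_range_add, ← Function.iterate_add_apply, add_comm]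

variable [Nonempty (Fin d)] (μ : Measure (Step d → ℝ)) [IsProbabilityMeasure μ] {l : Fin d → ℝ}

omit [Nonempty (Fin d)] in
lemma measurableSet_end (m : ℕ) (v : Site d) :
    MeasurableSet {X : ℕ → Site d | X (blockT l m X) = v} :=
  measurable_apply_time (measurable_blockT m) (measurableSet_singleton v)

omit [IsProbabilityMeasure μ] in
lemma pT_le_one (m : ℕ) (v : Site d) : pT μ l m v ≤ 1 :=
  ENNReal.div_le_of_le_mul (by rw [one_mul]; exact measure_mono inter_subset_left)

omit [IsProbabilityMeasure μ] in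
lemma tsum_pT_mul (m : ℕ) (F : Site d → ℝ≥0∞) :
    ∑' v, pT μ l m v * F v =
      (∫⁻ X in Good l, F (X (blockT l m X)) ∂annM μ) / annM μ (Good l) := by
  rw [← lintegral_map (f := F) (measurable_of_countable F)
      (measurable_apply_time (measurable_blockT m)),
    lintegral_countable', div_eq_mul_inv, ← ENNReal.tsum_mul_right]
  refine tsum_congr fun v => ?_
  rw [Measure.map_apply (measurable_apply_time (measurable_blockT m)) (measurableSet_singleton v),
    Measure.restrict_apply
      (measurable_apply_time (measurable_blockT m) (measurableSet_singleton v)),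
    Set.inter_comm, pT, div_eq_mul_inv]
  change _ = F v * annM μ (Good l ∩ {X | X (blockT l m X) = v}) * _
  ring

lemma tsum_pT (hq : annM μ (Good l) ≠ 0) (m : ℕ) : ∑' v, pT μ l m v = 1 := by
  have h := tsum_pT_mul μ (l := l) m fun _ => 1
  simp only [mul_one, setLIntegral_const, one_mul] at h
  rw [h]
  exact ENNReal.div_self hq (measure_ne_top _ _)

/-- The displacement of `k + T` blocks is the sum of two independent ones. -/
lemma pT_add (hs : SplitPin μ l) (hq : annM μ (Good l) ≠ 0) (k T : ℕ) (w : Site d) :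
    pT μ l (k + T) w = ∑' u, pT μ l k u * pT μ l T (w - u) := by
  classical
  set q := annM μ (Good l) with hqdef
  have hterm : ∀ u, annM μ (Good l ∩ {X | X (blockT l k X) = u} ∩
      (nextB l)^[k] ⁻¹' {X | X (blockT l T X) = w - u}) / q =
      pT μ l k u * pT μ l T (w - u) := by
    intro u
    have h := hs hq k {X | X (blockT l k X) = u} {X | X (blockT l T X) = w - u}
      ⟨measurableSet_end k u, fun X Y hT hXY => by
        simp only [Set.mem_ofPred_eq, ← hT, hXY _ le_rfl]⟩ (measurableSet_end T (w - u))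
    rw [← hqdef] at h
    simp only [pT, ← hqdef, div_eq_mul_inv]
    generalize annM μ (Good l ∩ {X | X (blockT l k X) = u} ∩
      (nextB l)^[k] ⁻¹' {X | X (blockT l T X) = w - u}) = x at h ⊢
    calc x * q⁻¹ = x * (q * q⁻¹) * q⁻¹ := by
          rw [ENNReal.mul_inv_cancel hq (measure_ne_top _ _), mul_one]
      _ = x * q * q⁻¹ * q⁻¹ := by ring
      _ = _ := by rw [h]; ring
  rw [← tsum_congr hterm, pT, ← hqdef]
  simp only [div_eq_mul_inv, ENNReal.tsum_mul_right]
  congr 1
  rw [← measure_iUnion]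
  · refine measure_congr ?_
    filter_upwards [ae_annM_zero μ] with X h0
    refine propext ⟨fun ⟨hG, hX⟩ => Set.mem_iUnion.2 ⟨X (blockT l k X), ⟨hG, rfl⟩, ?_⟩, ?_⟩
    · simp only [Set.mem_preimage, Set.mem_ofPred_eq, iterate_nextB_apply k _ X h0, ← blockT_add]
      simp only [Set.mem_ofPred_eq] at hX
      rw [hX]
    · intro h
      obtain ⟨u, ⟨hG, hu⟩, hv⟩ := Set.mem_iUnion.1 h
      simp only [Set.mem_preimage, Set.mem_ofPred_eq, iterate_nextB_apply k _ X h0,
        ← blockT_add] at hu hv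
      refine ⟨hG, ?_⟩
      simp only [Set.mem_ofPred_eq]
      rw [hu] at hv
      simpa using congrArg (· + u) hv
  · intro u u' huu'
    refine Set.disjoint_left.2 fun X hX hX' => huu' ?_
    exact hX.1.2.symm.trans hX'.1.2
  · exact fun u => (measurableSet_Good.inter (measurableSet_end k u)).inter
      ((measurable_nextB.iterate k) (measurableSet_end T (w - u)))

/-- **The likelihood gain is at most the increase of the entropy plus one.** -/
theorem gainPin (hs : SplitPin μ l) : GainPin μ l := by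
  intro hq T T₀ hT
  obtain ⟨k, rfl⟩ := Nat.exists_eq_add_of_le hT
  rw [gain, Nat.add_sub_cancel_left, add_comm T k]
  have hone : ∀ m, ∑' v, pT μ l m v = 1 := tsum_pT μ hq
  have hconv : ∀ w, pT μ l (k + T) w = ∑' u, pT μ l k u * pT μ l T (w - u) := pT_add μ hs hq k T
  set p := pT μ l k
  set r := pT μ l T
  set s := pT μ l (k + T)
  have hr1 : ∀ v, r v ≤ 1 := pT_le_one μ T
  have hs1 : ∀ v, s v ≤ 1 := pT_le_one μ (k + T)
  have hterm : ∀ u v, p u * r v * ENNReal.ofReal (Real.log ((r v).toReal / (s (u + v)).toReal)) +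
      p u * ENNReal.ofReal (Real.negMulLog (r v).toReal) ≤
      p u * (r v * ENNReal.ofReal (-Real.log (s (u + v)).toReal)) + p u * s (u + v) := by
    intro u v
    by_cases hb : s (u + v) = 0
    · have h0 : p u * r v ≤ s (u + v) := by
        rw [hconv]
        refine le_trans (le_of_eq ?_) (ENNReal.le_tsum u)
        rw [add_sub_cancel_left]
      rw [hb, nonpos_iff_eq_zero, mul_eq_zero] at h0
      rcases h0 with h0 | h0 <;> simp [h0]
    · have hrt : r v ≠ ⊤ := ne_top_of_le_ne_top ENNReal.one_ne_top (hr1 v)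
      have hst : s (u + v) ≠ ⊤ := ne_top_of_le_ne_top ENNReal.one_ne_top (hs1 _)
      have h := ratio_add_negMulLog_le (a := (r v).toReal) (b := (s (u + v)).toReal)
        ENNReal.toReal_nonneg (ENNReal.toReal_mono ENNReal.one_ne_top (hr1 v))
        (ENNReal.toReal_pos hb hst) (ENNReal.toReal_mono ENNReal.one_ne_top (hs1 _))
      rw [ENNReal.ofReal_toReal hrt, ENNReal.ofReal_toReal hst] at h
      rw [mul_assoc, ← mul_add, ← mul_add]
      gcongr
  have hsum := ENNReal.tsum_le_tsum fun u => ENNReal.tsum_le_tsum (hterm u)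
  simp only [ENNReal.tsum_add, ENNReal.tsum_mul_left, ENNReal.tsum_mul_right] at hsum
  rw [show ∑' i, p i = 1 from hone k, one_mul] at hsum
  refine le_trans hsum (add_le_add (le_of_eq ?_) (le_of_eq ?_))
  · calc ∑' u, p u * ∑' v, r v * ENNReal.ofReal (-Real.log (s (u + v)).toReal)
        = ∑' u, ∑' w, p u * r (w - u) * ENNReal.ofReal (-Real.log (s w).toReal) := by
          refine tsum_congr fun u => ?_
          rw [← ENNReal.tsum_mul_left]
          conv_rhs => rw [← (Equiv.addLeft u).tsum_eq]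
          refine tsum_congr fun v => ?_
          simp [mul_assoc]
      _ = ∑' w, ∑' u, p u * r (w - u) * ENNReal.ofReal (-Real.log (s w).toReal) :=
          ENNReal.tsum_comm
      _ = ent s := by
          refine tsum_congr fun w => ?_
          rw [ENNReal.tsum_mul_right, ← hconv]
          conv_lhs => rw [← ENNReal.ofReal_toReal (ne_top_of_le_ne_top ENNReal.one_ne_top (hs1 w))]
          rw [← ENNReal.ofReal_mul ENNReal.toReal_nonneg, Real.negMulLog,
            ENNReal.toReal_ofReal ENNReal.toReal_nonneg]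
          ring_nf
  · calc ∑' u, p u * ∑' v, s (u + v) = ∑' u, p u * 1 :=
          tsum_congr fun u => by rw [← hone (k + T)]; exact congrArg _ ((Equiv.addLeft u).tsum_eq s)
      _ = 1 := by simp only [mul_one]; exact hone k

/-- The root of a sum is at most the sum of the roots. -/
lemma sqrt_sum_le {ι : Type*} (s : Finset ι) (f : ι → ℝ) (hf : ∀ i, 0 ≤ f i) :
    Real.sqrt (∑ i ∈ s, f i) ≤ ∑ i ∈ s, Real.sqrt (f i) := by
  classical
  induction s using Finset.induction with
  | empty => simp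
  | insert a s ha ih =>
    rw [Finset.sum_insert ha, Finset.sum_insert ha]
    have h0 : 0 ≤ ∑ i ∈ s, f i := Finset.sum_nonneg fun i _ => hf i
    refine le_trans ?_ (add_le_add le_rfl ih)
    rw [Real.sqrt_le_iff]
    refine ⟨by positivity, ?_⟩
    nlinarith [Real.sq_sqrt (hf a), Real.sq_sqrt h0, Real.sqrt_nonneg (f a),
      Real.sqrt_nonneg (∑ i ∈ s, f i)]

omit [Nonempty (Fin d)] in
lemma abs_end_le (c : Fin d) {X : ℕ → Site d} (h0 : X 0 = 0) (m : ℕ) :
    |(X (blockT l m X) c : ℝ)| ≤
      ∑ i ∈ Finset.range m, (blockX l c ((nextB l)^[i] X) : ℝ) := by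
  cases m with
  | zero => simp [blockT_zero, h0]
  | succ k => rw [blockT_succ']; exact coord_le_sum c h0 k _ le_rfl

lemma log_one_add_le {x M : ℝ} (hx : 0 ≤ x) (hM : 0 ≤ M) :
    Real.log (1 + x) ≤ 2 * Real.log (1 + M) + 2 * (Real.sqrt x / (1 + M)) := by
  have hs := Real.sqrt_nonneg x
  have h1 : Real.log (1 + x) ≤ 2 * Real.log (1 + Real.sqrt x) := by
    have h := Real.log_le_log (by linarith : (0 : ℝ) < 1 + x)
      (show 1 + x ≤ (1 + Real.sqrt x) ^ 2 by nlinarith [Real.sq_sqrt hx])
    rw [Real.log_pow] at h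
    exact_mod_cast h
  have hp : (0 : ℝ) < (1 + Real.sqrt x) / (1 + M) := by positivity
  have h2 := Real.log_le_sub_one_of_pos hp
  rw [Real.log_div (by positivity) (by positivity)] at h2
  have h3 : (1 + Real.sqrt x) / (1 + M) ≤ 1 + Real.sqrt x / (1 + M) := by
    rw [add_div]
    exact add_le_add ((div_le_one (by linarith)).2 (by linarith)) le_rfl
  linarith

/-- The mean logarithm of one coordinate of the displacement. -/
lemma tsum_pT_log_le (hμ : ∀ᵐ p ∂μ, (∀ e, 0 < p e) ∧ ∑ e, p e = 1)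
    (hq : annM μ (Good l) ≠ 0) (c : Fin d) (m : ℕ) :
    ∑' v, pT μ l m v * ENNReal.ofReal (Real.log (1 + |(v c : ℝ)|)) ≤
      ENNReal.ofReal (2 * Real.log (1 + m)) +
        2 * ((∫⁻ X in Good l, ENNReal.ofReal ((blockX l c X : ℝ) ^ (1 / 2 : ℝ)) ∂annM μ) /
          annM μ (Good l)) := by
  have hq' : ann μ (Good l) ≠ 0 := by rw [ann_eq μ measurableSet_Good]; exact hq
  set g : (ℕ → Site d) → ℝ≥0∞ := fun X => ENNReal.ofReal ((blockX l c X : ℝ) ^ (1 / 2 : ℝ))
  have hg : Measurable g :=
    (measurable_of_countable fun k : ℕ => ENNReal.ofReal ((k : ℝ) ^ (1 / 2 : ℝ))).comp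
      (measurable_blockX c)
  have hm : (0 : ℝ) ≤ m := Nat.cast_nonneg m
  have hpt : ∀ᵐ X ∂(annM μ).restrict (Good l),
      ENNReal.ofReal (Real.log (1 + |(X (blockT l m X) c : ℝ)|)) ≤
        ENNReal.ofReal (2 * Real.log (1 + m)) +
          ENNReal.ofReal (2 / (1 + m)) * ∑ i ∈ Finset.range m, g ((nextB l)^[i] X) := by
    filter_upwards [ae_restrict_of_ae (ae_annM_zero μ)] with X h0
    refine le_trans (ENNReal.ofReal_le_ofReal (log_one_add_le (abs_nonneg _) hm)) ?_
    refine le_trans ENNReal.ofReal_add_le (add_le_add le_rfl ?_)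
    simp only [g]
    rw [← ENNReal.ofReal_sum_of_nonneg fun i _ => Real.rpow_nonneg (Nat.cast_nonneg _) _,
      ← ENNReal.ofReal_mul (by positivity)]
    refine ENNReal.ofReal_le_ofReal ?_
    rw [← mul_div_assoc, mul_div_right_comm]
    refine mul_le_mul_of_nonneg_left ?_ (by positivity)
    simp only [← Real.sqrt_eq_rpow]
    exact le_trans (Real.sqrt_le_sqrt (abs_end_le c h0 m))
      (sqrt_sum_le _ _ fun i => Nat.cast_nonneg _)
  rw [tsum_pT_mul μ m fun v => ENNReal.ofReal (Real.log (1 + |(v c : ℝ)|))]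
  refine le_trans (ENNReal.div_le_div_right (lintegral_mono_ae hpt) _) ?_
  rw [lintegral_add_left measurable_const, setLIntegral_const, ENNReal.add_div,
    ENNReal.mul_div_cancel_right hq (measure_ne_top _ _),
    lintegral_const_mul _ (Finset.measurable_fun_sum _ fun i _ =>
      (show Measurable fun X => g ((nextB l)^[i] X) from hg.comp (measurable_nextB.iterate i))),
    lintegral_finsetSum _ fun i _ =>
      (show Measurable fun X => g ((nextB l)^[i] X) from hg.comp (measurable_nextB.iterate i))]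
  refine add_le_add le_rfl ?_
  have hit : ∀ i, ∫⁻ X in Good l, g ((nextB l)^[i] X) ∂annM μ =
      ∫⁻ X in Good l, g X ∂annM μ := fun i => lintegral_iterate μ hμ hq' i hg
  simp only [hit, Finset.sum_const, Finset.card_range, nsmul_eq_mul]
  rw [← mul_assoc, mul_div_assoc, ← ENNReal.ofReal_natCast, ← ENNReal.ofReal_mul (by positivity)]
  gcongr
  rw [← ENNReal.ofReal_ofNat 2]
  refine ENNReal.ofReal_le_ofReal ?_
  rw [div_mul_eq_mul_div, div_le_iff₀ (by positivity)]
  linarith

/-- **The entropy of the displacement of `m` blocks is at most logarithmic.** -/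
theorem entPin (hμ : ∀ᵐ p ∂μ, (∀ e, 0 < p e) ∧ ∑ e, p e = 1) (hl : LateralPin μ l) :
    EntPin μ l := by
  intro hq
  have hq' : ann μ (Good l) ≠ 0 := by rw [ann_eq μ measurableSet_Good]; exact hq
  set M : Fin d → ℝ≥0∞ := fun c =>
    (∫⁻ X in Good l, ENNReal.ofReal ((blockX l c X : ℝ) ^ (1 / 2 : ℝ)) ∂annM μ) / annM μ (Good l)
  have hM : ∀ c, M c ≠ ⊤ := fun c =>
    ENNReal.div_ne_top (hl hq' c (1 / 2) (by norm_num) (by norm_num)) hq
  set f : ℤ → ℝ≥0∞ := fun n => ENNReal.ofReal (((1 + |(n : ℝ)|) ^ 2)⁻¹)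
  set R := ∑' v : Site d, ∏ c, f (v c) with hR
  have hRt : R ≠ ⊤ := by
    rw [hR, tsum_prod_coord f d]
    exact ENNReal.pow_ne_top tsum_inv_sq_ne_top
  refine ⟨∑ c, (4 + 4 * (M c).toReal) + R.toReal, by positivity, fun m => ?_⟩
  have hlog : 0 ≤ Real.log (1 + (m : ℝ)) :=
    Real.log_nonneg (by linarith [(Nat.cast_nonneg m : (0 : ℝ) ≤ (m : ℝ))])
  have hterm : ∀ v, ENNReal.ofReal (Real.negMulLog (pT μ l m v).toReal) ≤
      ∑ c, 2 * (pT μ l m v * ENNReal.ofReal (Real.log (1 + |(v c : ℝ)|))) + ∏ c, f (v c) := by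
    intro v
    have hpos : ∀ c, (0 : ℝ) < (1 + |(v c : ℝ)|) ^ 2 := fun c => by positivity
    have hone : ∀ c, (1 : ℝ) ≤ (1 + |(v c : ℝ)|) ^ 2 := fun c =>
      one_le_pow₀ (by linarith [abs_nonneg (v c : ℝ)])
    have hb : 0 < ∏ c, ((1 + |(v c : ℝ)|) ^ 2)⁻¹ :=
      Finset.prod_pos fun c _ => inv_pos.2 (hpos c)
    have hb1 : ∏ c, ((1 + |(v c : ℝ)|) ^ 2)⁻¹ ≤ 1 :=
      Finset.prod_le_one (fun c _ => (inv_pos.2 (hpos c)).le) fun c _ => inv_le_one_of_one_le₀ (hone c)
    have h := le_trans le_add_self (ratio_add_negMulLog_le (a := (pT μ l m v).toReal)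
      ENNReal.toReal_nonneg (ENNReal.toReal_mono ENNReal.one_ne_top (pT_le_one μ m v)) hb hb1)
    refine le_trans h (add_le_add (le_of_eq ?_) (le_of_eq ?_))
    · rw [ENNReal.ofReal_toReal (ne_top_of_le_ne_top ENNReal.one_ne_top (pT_le_one μ m v)),
        Real.log_prod fun c _ => (inv_pos.2 (hpos c)).ne', ← Finset.sum_neg_distrib,
        ENNReal.ofReal_sum_of_nonneg fun c _ => by
          rw [Real.log_inv, neg_neg]; exact Real.log_nonneg (hone c),
        Finset.mul_sum]
      refine Finset.sum_congr rfl fun c _ => ?_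
      rw [Real.log_inv, neg_neg, Real.log_pow, Nat.cast_ofNat,
        ENNReal.ofReal_mul (by norm_num), ENNReal.ofReal_ofNat]
      ring
    · exact ENNReal.ofReal_prod_of_nonneg fun c _ => (inv_pos.2 (hpos c)).le
  refine le_trans (ENNReal.tsum_le_tsum hterm) ?_
  rw [ENNReal.tsum_add, Summable.tsum_finsetSum fun c _ => ENNReal.summable]
  simp only [ENNReal.tsum_mul_left]
  have hc : ∀ c, 2 * ∑' v, pT μ l m v * ENNReal.ofReal (Real.log (1 + |(v c : ℝ)|)) ≤
      ENNReal.ofReal (4 * Real.log (1 + m) + 4 * (M c).toReal) := by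
    intro c
    refine le_trans (mul_le_mul_right (tsum_pT_log_le μ hμ hq c m) 2) (le_of_eq ?_)
    rw [ENNReal.ofReal_add (by positivity) (by positivity), mul_add, ← mul_assoc 2 2,
      ENNReal.ofReal_mul (by norm_num : (0 : ℝ) ≤ 2),
      ENNReal.ofReal_mul (by norm_num : (0 : ℝ) ≤ 4),
      ENNReal.ofReal_mul (by norm_num : (0 : ℝ) ≤ 4), ENNReal.ofReal_toReal (hM c)]
    simp only [ENNReal.ofReal_ofNat]
    rw [← mul_assoc 2 2]
    norm_num
    rfl
  refine le_trans (add_le_add (Finset.sum_le_sum fun c _ => hc c) le_rfl) ?_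
  rw [← hR, ← ENNReal.ofReal_sum_of_nonneg fun c _ => by positivity]
  conv_lhs => rw [← ENNReal.ofReal_toReal hRt]
  rw [← ENNReal.ofReal_add (Finset.sum_nonneg fun c _ => by positivity) ENNReal.toReal_nonneg]
  refine ENNReal.ofReal_le_ofReal ?_
  rw [add_mul, Finset.sum_mul]
  refine add_le_add (Finset.sum_le_sum fun c _ => ?_) ?_
  · nlinarith [(M c).toReal_nonneg]
  · nlinarith [R.toReal_nonneg]

end Vale.Agent.P147.Flip.Full
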