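import Vale.Agent.P147.Flip.Full.Pins
import Vale.Agent.P147.Flip.Disjoint
import Vale.Agent.P147.ZeroOne

/-!
# The zero-one law from its parts
-/

namespace Vale.Agent.P147.Flip.Full

open MeasureTheory Filter Topology Vale.Agent.P147.Balanced Vale.Agent.P147.Linear Vale.Agent.P147.Flip
open scoped ENNReal

variable {d : ℕ} [Nonempty (Fin d)]

omit [Nonempty (Fin d)] in
lemma univ_subset_low_high (l : Fin d → ℝ) (n : ℕ) :
    (Set.univ : Set ((ℕ → Site d) × (ℕ → Site d))) ⊆
      {q | ∀ i < blockT l n q.1, ∀ k, q.1 i - q.1 (blockT l n q.1) ≠ q.2 k} ∪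
        (Low l n ∪ High l n) := by
  classical
  intro q _
  by_cases h : ∃ i, i < blockT l n q.1 ∧ ∃ k, q.1 i - q.1 (blockT l n q.1) = q.2 k
  · obtain ⟨hlt, hk⟩ := Nat.find_spec h
    by_cases hlow : Nat.find h < blockT l (n / 2) q.1
    · exact Or.inr (Or.inl ⟨_, hlow, hk⟩)
    · refine Or.inr (Or.inr ⟨_, not_lt.1 hlow, hlt, hk, fun j hj k hjk => ?_⟩)
      exact Nat.find_min h hj ⟨hj.trans hlt, k, hjk⟩
  · exact Or.inl fun i hi k hk => h ⟨i, hi, k, hk⟩

/-- Escape in both directions is impossible. -/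
theorem not_both (μ : Measure (Step d → ℝ)) [IsProbabilityMeasure μ] (l : Fin d → ℝ)
    (hflip : FlipPin μ l) (hlow : LowPin μ l) (hhigh : HighPin μ l) (hch : ChoosePin μ l)
    (hq : annM μ (Good l) ≠ 0) (hq' : annM μ (Good (-l)) ≠ 0) : False := by
  set A : ℕ → ℝ≥0∞ := fun n =>
    pairLaw μ l {q | ∀ i < blockT l n q.1, ∀ k, q.1 i - q.1 (blockT l n q.1) ≠ q.2 k} with hA
  have hsum : ∑' n, A n ≠ ⊤ := ne_top_of_le_ne_top
    (by rw [ann_eq μ measurableSet_Good]; exact measure_ne_top _ _) hflip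
  have hA0 : Tendsto (fun P : ℕ => A (2 ^ P)) atTop (𝓝 0) :=
    (ENNReal.tendsto_atTop_zero_of_tsum_ne_top hsum).comp
      (tendsto_pow_atTop_atTop_of_one_lt (one_lt_two : (1 : ℕ) < 2))
  set tot : ℝ≥0∞ := annM μ (Good l) * annM μ (Good (-l)) with htot
  have htot' : tot ≠ ⊤ := ENNReal.mul_ne_top (measure_ne_top _ _) (measure_ne_top _ _)
  have htot0 : 0 < tot.toReal := ENNReal.toReal_pos (mul_ne_zero hq hq') htot'
  set η : ℝ := tot.toReal / 16 with hη
  have hη0 : 0 < η := by positivity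
  obtain ⟨K, hK, hgood⟩ := hch hq
  obtain ⟨a, b, C, ha, hab, hC, hhi⟩ := hhigh hq hq' η hη0
  have hlo := hlow hq hq' η (K / η) hη0 (by positivity)
  have hfreq := hgood (η ^ 2 / (3 * C ^ 2)) a b (by positivity) ha hab
  have hev1 : ∀ᶠ P : ℕ in atTop, A (2 ^ P) ≤ ENNReal.ofReal η :=
    hA0.eventually (eventually_le_nhds (by simpa using hη0))
  have hev2 : ∀ᶠ P : ℕ in atTop, 1 ≤ C * P / η ∧ C ^ 2 / η / P ≤ η := by
    refine Eventually.and ?_ ?_
    · exact (Tendsto.atTop_div_const hη0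
        (Tendsto.const_mul_atTop hC tendsto_natCast_atTop_atTop)).eventually_ge_atTop 1
    · exact ((tendsto_const_nhds (x := C ^ 2 / η)).div_atTop
        tendsto_natCast_atTop_atTop).eventually (eventually_le_nhds hη0)
  obtain ⟨P, ⟨hgain, hband⟩, ⟨hAP, hlo', hhi', hP1, hP2⟩, hP0⟩ :=
    (hfreq.and_eventually ((hev1.and (hlo.and (hhi.and hev2))).and
      (eventually_gt_atTop 0))).exists
  set m : ℕ := Nat.log 2 P + 1 with hm
  have hPm : (P : ℝ) ≤ 2 ^ m := by exact_mod_cast (Nat.lt_pow_succ_log_self one_lt_two P).le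
  have hPR : (0 : ℝ) < P := by exact_mod_cast hP0
  set lam : ℝ≥0∞ := ENNReal.ofReal (C * P / η) with hlam
  have hh := hhi' lam (2 * m) (by rw [hlam, ← ENNReal.ofReal_one]; exact ENNReal.ofReal_le_ofReal hP1)
  have h1 : ENNReal.ofReal C * (P : ℝ≥0∞) / lam ≤ ENNReal.ofReal η := by
    rw [hlam, ← ENNReal.ofReal_natCast P, ← ENNReal.ofReal_mul hC.le,
      ← ENNReal.ofReal_div_of_pos (by positivity)]
    refine ENNReal.ofReal_le_ofReal (le_of_eq ?_)
    field_simp
  have hcl : ENNReal.ofReal C * lam = ENNReal.ofReal (C ^ 2 / η) * (P : ℝ≥0∞) := by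
    rw [hlam, ← ENNReal.ofReal_mul hC.le, ← ENNReal.ofReal_natCast P,
      ← ENNReal.ofReal_mul (by positivity)]
    congr 1
    ring
  have h2 : ENNReal.ofReal C * lam * (((2 * m + 1 : ℕ) : ℝ≥0∞) * band μ l (a * 2 ^ P) (b * 2 ^ P))
      ≤ ENNReal.ofReal η := by
    have hm3 : ((2 * m + 1 : ℕ) : ℝ≥0∞) ≤ ENNReal.ofReal 3 * (m : ℝ≥0∞) := by
      rw [show ENNReal.ofReal 3 = ((3 : ℕ) : ℝ≥0∞) by simp, ← Nat.cast_mul]
      exact Nat.cast_le.2 (by omega)
    calc ENNReal.ofReal C * lam * (((2 * m + 1 : ℕ) : ℝ≥0∞) * band μ l (a * 2 ^ P) (b * 2 ^ P))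
        ≤ ENNReal.ofReal C * lam *
            (ENNReal.ofReal 3 * (m : ℝ≥0∞) * band μ l (a * 2 ^ P) (b * 2 ^ P)) := by gcongr
      _ = ENNReal.ofReal (C ^ 2 / η) * ENNReal.ofReal 3 *
            ((P : ℝ≥0∞) * (m : ℝ≥0∞) * band μ l (a * 2 ^ P) (b * 2 ^ P)) := by rw [hcl]; ring
      _ ≤ ENNReal.ofReal (C ^ 2 / η) * ENNReal.ofReal 3 * ENNReal.ofReal (η ^ 2 / (3 * C ^ 2)) := by
          gcongr
      _ = ENNReal.ofReal η := by
          rw [← ENNReal.ofReal_mul (by positivity), ← ENNReal.ofReal_mul (by positivity)]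
          congr 1
          field_simp
  have h3 : ENNReal.ofReal C * lam * ((2 : ℝ≥0∞)⁻¹) ^ (2 * m) ≤ ENNReal.ofReal η := by
    have h2i : ((2 : ℝ≥0∞)⁻¹) = ENNReal.ofReal (2⁻¹ : ℝ) := by
      rw [ENNReal.ofReal_inv_of_pos two_pos, ENNReal.ofReal_ofNat]
    rw [hcl, h2i, ← ENNReal.ofReal_pow (by norm_num), ← ENNReal.ofReal_natCast P,
      ← ENNReal.ofReal_mul (by positivity), ← ENNReal.ofReal_mul (by positivity)]
    refine ENNReal.ofReal_le_ofReal (le_trans ?_ hP2)
    have h4 : (2⁻¹ : ℝ) ^ (2 * m) ≤ 1 / (P : ℝ) ^ 2 := by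
      rw [inv_pow, one_div, pow_mul']
      gcongr
    calc C ^ 2 / η * (P : ℝ) * (2⁻¹ : ℝ) ^ (2 * m) ≤ C ^ 2 / η * P * (1 / (P : ℝ) ^ 2) := by gcongr
      _ = C ^ 2 / η / P := by field_simp
  have h5 : gain μ l (2 ^ P / 8) (2 * 2 ^ P) / ENNReal.ofReal (K / η) ≤ ENNReal.ofReal η := by
    refine (ENNReal.div_le_div_right hgain _).trans ?_
    rw [← ENNReal.ofReal_div_of_pos (by positivity)]
    refine ENNReal.ofReal_le_ofReal (le_of_eq ?_)
    field_simp
  have key : tot ≤ ENNReal.ofReal (7 * η) := by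
    calc tot = pairLaw μ l Set.univ := by
          rw [pairLaw, ← Set.univ_prod_univ, Measure.prod_prod, Measure.restrict_apply_univ,
            Measure.restrict_apply_univ]
      _ ≤ A (2 ^ P) + (pairLaw μ l (Low l (2 ^ P)) + pairLaw μ l (High l (2 ^ P))) :=
          (measure_mono (univ_subset_low_high l _)).trans ((measure_union_le _ _).trans
            (add_le_add le_rfl (measure_union_le _ _)))
      _ ≤ ENNReal.ofReal η + ((ENNReal.ofReal η + ENNReal.ofReal η) +
            (ENNReal.ofReal η + ENNReal.ofReal η + (ENNReal.ofReal η + ENNReal.ofReal η))) := by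
          refine add_le_add hAP (add_le_add (hlo'.trans (add_le_add le_rfl h5)) (hh.trans ?_))
          rw [mul_add (ENNReal.ofReal C * lam)]
          exact add_le_add (add_le_add le_rfl h1) (add_le_add h2 h3)
      _ = ENNReal.ofReal (7 * η) := by
          rw [← ENNReal.ofReal_add hη0.le hη0.le,
            ← ENNReal.ofReal_add (by positivity) (by positivity),
            ← ENNReal.ofReal_add (by positivity) (by positivity),
            ← ENNReal.ofReal_add (by positivity) (by positivity)]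
          congr 1
          ring
  have := ENNReal.toReal_le_of_le_ofReal (by positivity) key
  simp only [hη] at this
  linarith

/-- **The zero-one law**, from the parts of its proof. -/
theorem zeroOne_of_pins (μ : Measure (Step d → ℝ)) [IsProbabilityMeasure μ]
    (hμ : ∀ᵐ p ∂μ, (∀ e, 0 < p e) ∧ ∑ e, p e = 1) (l : Fin d → ℝ)
    (hflip : FlipPin μ l) (hlow : LowPin μ l) (hhigh : HighPin μ l) (hch : ChoosePin μ l)
    (hone : OneSidedPin μ l) : ZeroOnePin μ l := by
  by_cases h : ann μ (escape l) = 0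
  · exact Or.inl h
  by_cases h' : ann μ (escape (-l)) = 0
  · exact Or.inr (hone h h')
  refine (not_both μ l hflip hlow hhigh hch ?_ ?_).elim
  · rw [← ann_eq μ measurableSet_Good]; exact good_ne_zero μ hμ h
  · rw [← ann_eq μ measurableSet_Good]; exact good_ne_zero μ hμ h'

/-- An annealed value zero or one of the escape is also the quenched one, at every starting point. -/
theorem quenched_of_ann (μ : Measure (Step d → ℝ)) [IsProbabilityMeasure μ]
    (l : Fin d → ℝ) (h : ZeroOnePin μ l) :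
    (∀ᵐ ω ∂envLaw μ, ∀ x, law ω x (escape l) = 0) ∨
      (∀ᵐ ω ∂envLaw μ, ∀ x, law ω x (escape l) = 1) := by
  have hA := measurableSet_escape l
  have hx : ∀ x, ∫⁻ ω, law ω x (escape l) ∂envLaw μ = ann μ (escape l) := fun x => by
    rw [lintegral_law_eq_ann μ x hA, translate_preimage_escape]
  rcases h with h | h
  · refine Or.inl (ae_all_iff.2 fun x => ?_)
    have := hx x
    rw [h] at this
    exact (lintegral_eq_zero_iff (measurable_law_apply x hA)).1 this
  · refine Or.inr (ae_all_iff.2 fun x => ?_)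
    have h1 : ∫⁻ ω, law ω x (escape l)ᶜ ∂envLaw μ = 0 := by
      have hs : ∫⁻ ω, (law ω x (escape l) + law ω x (escape l)ᶜ) ∂envLaw μ = 1 := by
        rw [lintegral_congr_ae (g := fun _ => (1 : ℝ≥0∞)) (Eventually.of_forall fun ω => by
          simp [measure_add_measure_compl hA])]
        simp
      rw [lintegral_add_left (measurable_law_apply x hA), hx x, h] at hs
      exact ENNReal.add_right_inj ENNReal.one_ne_top |>.1 (by rw [hs, add_zero])
    filter_upwards [(lintegral_eq_zero_iff (measurable_law_apply x hA.compl)).1 h1] with ω hω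
    have := measure_add_measure_compl (μ := law ω x) hA
    rw [show law ω x (escape l)ᶜ = 0 from hω, add_zero, measure_univ] at this
    exact this

end Vale.Agent.P147.Flip.Full
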