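import Vale.Agent.P147.Flip.Strip

/-!
# The zero-one law in every dimension: the parts of the proof

A walk of the second kind, started at the end of `n` blocks of the first kind, meets them with small
probability for suitable large `n`; the flip lemma says that this probability tends to the full mass.
-/

namespace Vale.Agent.P147.Flip.Full

open MeasureTheory Filter Topology Vale.Agent.P147.Balanced Vale.Agent.P147.Linear Vale.Agent.P147.Flip
open scoped ENNReal

variable {d : ℕ} [Nonempty (Fin d)]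

/-- The two independent walks: blocks in direction `l`, and a walk escaping in direction `-l`. -/
noncomputable def pairLaw (μ : Measure (Step d → ℝ)) (l : Fin d → ℝ) :
    Measure ((ℕ → Site d) × (ℕ → Site d)) :=
  ((annM μ).restrict (Good l)).prod ((annM μ).restrict (Good (-l)))

/-- The second walk, moved to the end of the `n` blocks, visits their sites. -/
def MeetBlocks (l : Fin d → ℝ) (n : ℕ) : Set ((ℕ → Site d) × (ℕ → Site d)) :=
  {q | ∃ i < blockT l n q.1, ∃ k, q.1 i - q.1 (blockT l n q.1) = q.2 k}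

/-- It visits a site of the lower half of the blocks. -/
def Low (l : Fin d → ℝ) (n : ℕ) : Set ((ℕ → Site d) × (ℕ → Site d)) :=
  {q | ∃ i < blockT l (n / 2) q.1, ∃ k, q.1 i - q.1 (blockT l n q.1) = q.2 k}

/-- The first time of the blocks at a site it visits lies in the upper half. -/
def High (l : Fin d → ℝ) (n : ℕ) : Set ((ℕ → Site d) × (ℕ → Site d)) :=
  {q | ∃ i, blockT l (n / 2) q.1 ≤ i ∧ i < blockT l n q.1 ∧
    (∃ k, q.1 i - q.1 (blockT l n q.1) = q.2 k) ∧
    ∀ j < i, ∀ k, q.1 j - q.1 (blockT l n q.1) ≠ q.2 k}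

/-- The law of the displacement of `m` blocks. -/
noncomputable def pT (μ : Measure (Step d → ℝ)) (l : Fin d → ℝ) (m : ℕ) (v : Site d) : ℝ≥0∞ :=
  annM μ (Good l ∩ {X | X (blockT l m X) = v}) / annM μ (Good l)

/-- The entropy of a law on the lattice. -/
noncomputable def ent (p : Site d → ℝ≥0∞) : ℝ≥0∞ :=
  ∑' v, ENNReal.ofReal (Real.negMulLog (p v).toReal)

/-- The positive part of the logarithmic likelihood ratio between the displacement of the last `T`
of `T₀` blocks and that of all of them. -/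
noncomputable def gain (μ : Measure (Step d → ℝ)) (l : Fin d → ℝ) (T T₀ : ℕ) : ℝ≥0∞ :=
  ∑' u, ∑' v, pT μ l (T₀ - T) u * pT μ l T v *
    ENNReal.ofReal (Real.log ((pT μ l T v).toReal / (pT μ l T₀ (u + v)).toReal))

/-- The probability to get `a` ahead before falling behind, but not more than `b`. -/
noncomputable def band (μ : Measure (Step d → ℝ)) (l : Fin d → ℝ) (a b : ℝ) : ℝ≥0∞ :=
  ann μ (Up l a \ UpS l b)

/-- The event `A` depends only on the first `k` blocks. -/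
def BlockEvent (l : Fin d → ℝ) (k : ℕ) (A : Set (ℕ → Site d)) : Prop :=
  MeasurableSet A ∧ ∀ X Y, blockT l k X = blockT l k Y → (∀ i ≤ blockT l k X, X i = Y i) →
    (X ∈ A ↔ Y ∈ A)

/-- The blocks after the first `k` are independent of them. -/
def SplitPin (μ : Measure (Step d → ℝ)) (l : Fin d → ℝ) : Prop :=
  annM μ (Good l) ≠ 0 → ∀ (k : ℕ) (A B : Set (ℕ → Site d)), BlockEvent l k A → MeasurableSet B →
    annM μ (Good l ∩ A ∩ (nextB l)^[k] ⁻¹' B) * annM μ (Good l) =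
      annM μ (Good l ∩ A) * annM μ (Good l ∩ B)

/-- The height of `m` blocks is exponentially unlikely to be small. -/
def LaplacePin (μ : Measure (Step d → ℝ)) (l : Fin d → ℝ) : Prop :=
  annM μ (Good l) ≠ 0 → ∃ ρ : ℝ, 0 < ρ ∧ ρ < 1 ∧ ∀ (m : ℕ) (s : ℝ),
    annM μ (Good l ∩ {X | dot l (X (blockT l m X)) ≤ s}) ≤ ENNReal.ofReal (Real.exp s * ρ ^ m)

/-- The weak law of large numbers for the heights of the blocks. -/
def WllnPin (μ : Measure (Step d → ℝ)) (l : Fin d → ℝ) : Prop :=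
  annM μ (Good l) ≠ 0 → ∃ ν : ℝ, 0 < ν ∧ ∀ δ : ℝ, 0 < δ → Tendsto (fun m : ℕ =>
    annM μ (Good l ∩ {X | δ * m < |dot l (X (blockT l m X)) - ν * m|})) atTop (𝓝 0)

/-- The entropy of `m` blocks is at most logarithmic. -/
def EntPin (μ : Measure (Step d → ℝ)) (l : Fin d → ℝ) : Prop :=
  annM μ (Good l) ≠ 0 → ∃ C : ℝ, 0 ≤ C ∧
    ∀ m : ℕ, ent (pT μ l m) ≤ ENNReal.ofReal (C * (1 + Real.log (1 + m)))

/-- The likelihood gain is at most the increase of the entropy. -/
def GainPin (μ : Measure (Step d → ℝ)) (l : Fin d → ℝ) : Prop :=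
  annM μ (Good l) ≠ 0 → ∀ T T₀ : ℕ, T ≤ T₀ → gain μ l T T₀ + ent (pT μ l T) ≤ ent (pT μ l T₀) + 1

/-- Meeting the lower half of the blocks: another top, and the strip bound. -/
def LowPin (μ : Measure (Step d → ℝ)) (l : Fin d → ℝ) : Prop :=
  annM μ (Good l) ≠ 0 → annM μ (Good (-l)) ≠ 0 → ∀ η L : ℝ, 0 < η → 0 < L → ∀ᶠ P : ℕ in atTop,
    pairLaw μ l (Low l (2 ^ P)) ≤
      ENNReal.ofReal η + gain μ l (2 ^ P / 8) (2 * 2 ^ P) / ENNReal.ofReal L

/-- Meeting only the upper half: the completion martingale and the band. -/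
def HighPin (μ : Measure (Step d → ℝ)) (l : Fin d → ℝ) : Prop :=
  annM μ (Good l) ≠ 0 → annM μ (Good (-l)) ≠ 0 → ∀ η : ℝ, 0 < η → ∃ a b C : ℝ, 0 < a ∧ a < b ∧
    0 < C ∧ ∀ᶠ P : ℕ in atTop, ∀ (lam : ℝ≥0∞) (i₀ : ℕ), 1 ≤ lam →
      pairLaw μ l (High l (2 ^ P)) ≤ ENNReal.ofReal η + ENNReal.ofReal C * (P : ℝ≥0∞) / lam +
        ENNReal.ofReal C * lam *
          ((i₀ + 1 : ℕ) * band μ l (a * 2 ^ P) (b * 2 ^ P) + ((2 : ℝ≥0∞)⁻¹) ^ i₀)

/-- Good scales exist. -/
def ChoosePin (μ : Measure (Step d → ℝ)) (l : Fin d → ℝ) : Prop :=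
  annM μ (Good l) ≠ 0 → ∃ K : ℝ, 0 < K ∧ ∀ η a b : ℝ, 0 < η → 0 < a → a < b →
    ∃ᶠ P : ℕ in atTop, gain μ l (2 ^ P / 8) (2 * 2 ^ P) ≤ ENNReal.ofReal K ∧
      (P : ℝ≥0∞) * ((Nat.log 2 P + 1 : ℕ) : ℝ≥0∞) *
        band μ l (a * 2 ^ P) (b * 2 ^ P) ≤ ENNReal.ofReal η

/-- Without escape in one direction, escape in the other is certain or impossible. -/
def OneSidedPin (μ : Measure (Step d → ℝ)) (l : Fin d → ℝ) : Prop :=
  ann μ (escape l) ≠ 0 → ann μ (escape (-l)) = 0 → ann μ (escape l) = 1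

/-- The directional zero-one law. -/
def ZeroOnePin (μ : Measure (Step d → ℝ)) (l : Fin d → ℝ) : Prop :=
  ann μ (escape l) = 0 ∨ ann μ (escape l) = 1

end Vale.Agent.P147.Flip.Full
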