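import Vale.Agent.P147.Flip.High
import Vale.Agent.P147.Flip.Lateral
import Vale.Agent.P147.Flip.Full.Pins

/-!
# The upper half: the pinned form
-/

namespace Vale.Agent.P147.Flip.Full

open MeasureTheory Filter Topology Vale.Agent.P147.Balanced Vale.Agent.P147.Linear Vale.Agent.P147.Flip
open scoped ENNReal

variable {d : ℕ}

/-- A sum over the lattice of a product of coordinates. -/
lemma tsum_pi_prod (f : ℤ → ℝ≥0∞) :
    ∀ d : ℕ, ∑' t : Fin d → ℤ, ∏ i, f (t i) = (∑' x, f x) ^ d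
  | 0 => by simp
  | d + 1 => by
    rw [← (Fin.consEquiv fun _ : Fin (d + 1) => ℤ).tsum_eq, ENNReal.tsum_prod']
    simp only [Fin.consEquiv_apply, Fin.prod_univ_succ, Fin.cons_zero, Fin.cons_succ,
      ENNReal.tsum_mul_left, tsum_pi_prod f d, ENNReal.tsum_mul_right]
    rw [pow_succ']

/-- The number of dyadic levels used at a site. -/
def levels (t : Site d) : ℕ := ∑ c, 2 * (Nat.log 2 (1 + (t c).natAbs) + 1)

/-- The levels of all sites give a finite error. -/
theorem tsum_levels_ne_top : ∑' t : Site d, (2⁻¹ : ℝ≥0∞) ^ levels t ≠ ⊤ := by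
  set f : ℤ → ℝ≥0∞ := fun x => (2⁻¹ : ℝ≥0∞) ^ (2 * (Nat.log 2 (1 + x.natAbs) + 1)) with hf
  have h1 : ∀ t : Site d, (2⁻¹ : ℝ≥0∞) ^ levels t = ∏ c, f (t c) := fun t => by
    rw [levels, ← Finset.prod_pow_eq_pow_sum]
  rw [tsum_congr h1, tsum_pi_prod]
  refine ENNReal.pow_ne_top ?_
  set g : ℤ → ℝ := fun x => (((1 + x.natAbs : ℕ) : ℝ) ^ 2)⁻¹ with hg
  have hs : Summable g := by
    have h : Summable fun n : ℕ => (((1 + n : ℕ) : ℝ) ^ 2)⁻¹ := by
      have := (summable_nat_add_iff 1).2 (Real.summable_one_div_nat_pow.2 one_lt_two)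
      refine this.congr fun n => ?_
      push_cast
      ring
    refine summable_int_iff_summable_nat_and_neg.2 ⟨?_, ?_⟩
    · exact h.congr fun n => by simp [hg]
    · exact h.congr fun n => by simp [hg]
  refine ne_top_of_le_ne_top (b := ∑' x, f x) (a := ∑' x, f x) ?_ le_rfl
  refine ne_top_of_le_ne_top (ENNReal.ofReal_tsum_of_nonneg (fun x => by positivity) hs ▸
    ENNReal.ofReal_ne_top : ∑' x, ENNReal.ofReal (g x) ≠ ⊤) (ENNReal.tsum_le_tsum fun x => ?_)
  set k := Nat.log 2 (1 + x.natAbs) + 1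
  have hk : ((1 + x.natAbs : ℕ) : ℝ) ≤ 2 ^ k := by
    exact_mod_cast (Nat.lt_pow_succ_log_self one_lt_two (1 + x.natAbs)).le
  have e : f x = ENNReal.ofReal ((((2 : ℝ) ^ k) ^ 2)⁻¹) := by
    rw [ENNReal.ofReal_inv_of_pos (by positivity), ← pow_mul, mul_comm k 2,
      ENNReal.ofReal_pow two_pos.le, ENNReal.ofReal_ofNat]
    simp only [hf, k, ENNReal.inv_pow]
  rw [e]
  refine ENNReal.ofReal_le_ofReal (inv_anti₀ (by positivity) ?_)
  exact pow_le_pow_left₀ (Nat.cast_nonneg _) hk 2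

/-- A logarithm is small against a square root. -/
lemma log_le_sqrt (x P : ℕ) : (Nat.log 2 (1 + x) : ℝ) ≤ 4 * P + 4 * √(1 + x : ℝ) / 2 ^ P := by
  set k := Nat.log 2 (1 + x)
  rcases Nat.le_total k (4 * P) with h | h
  · have h' : (k : ℝ) ≤ 4 * P := by exact_mod_cast h
    have : 0 ≤ 4 * √(1 + x : ℝ) / 2 ^ P := by positivity
    linarith
  obtain ⟨j, hj⟩ := Nat.exists_eq_add_of_le h
  set i := j / 2
  have hi : 2 * i + 1 ≤ 4 * 2 ^ i := by
    have := @Nat.lt_two_pow_self i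
    omega
  have hpow : ((2 : ℝ) ^ P * 2 ^ i) ^ 2 ≤ (1 + x : ℝ) := by
    have h1 : (2 ^ P * 2 ^ i) ^ 2 ≤ 2 ^ k := by
      rw [← pow_add, ← pow_mul]
      exact Nat.pow_le_pow_right two_pos (by omega)
    have h2 : 2 ^ k ≤ 1 + x := Nat.pow_log_le_self 2 (by omega)
    exact_mod_cast h1.trans h2
  have h3 : (2 : ℝ) ^ P * 2 ^ i ≤ √(1 + x : ℝ) := Real.le_sqrt_of_sq_le hpow
  have h4 : (k : ℝ) ≤ 4 * P + 4 * 2 ^ i := by
    have : k ≤ 4 * P + 4 * 2 ^ i := by omega
    exact_mod_cast this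
  refine h4.trans (add_le_add le_rfl ?_)
  rw [le_div_iff₀ (by positivity)]
  nlinarith

/-- The end of `n` blocks is no farther sideways than their lateral extents together. -/
lemma sqrt_end_le (l : Fin d → ℝ) (c : Fin d) :
    ∀ (n : ℕ) (X : ℕ → Site d), X 0 = 0 → √((X (blockT l n X) c).natAbs : ℝ) ≤
      ∑ i ∈ Finset.range n, √(blockX l c ((nextB l)^[i] X) : ℝ)
  | 0, X, h0 => by simp [blockT_zero, h0]
  | n + 1, X, h0 => by
    have ih := sqrt_end_le l c n (nextB l X) (by simp [nextB])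
    rw [blockT_succ, Finset.sum_range_succ', Function.iterate_zero_apply]
    simp only [Function.iterate_succ_apply]
    set a := (nextB l X (blockT l n (nextB l X)) c).natAbs
    set b := blockX l c X
    have hb : (X (firstT l X) c).natAbs ≤ b := by
      refine le_trans (le_of_eq ?_) (Finset.le_sup (f := fun i => (X i c - X 0 c).natAbs)
        (Finset.mem_range.2 (Nat.lt_succ_self _)))
      simp [h0]
    have hab : (X (firstT l X + blockT l n (nextB l X)) c).natAbs ≤ a + b := by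
      have e : X (firstT l X + blockT l n (nextB l X)) c =
          nextB l X (blockT l n (nextB l X)) c + X (firstT l X) c := by simp [nextB]
      rw [e]
      exact (Int.natAbs_add_le _ _).trans (Nat.add_le_add_left hb _)
    refine le_trans ?_ (add_le_add ih le_rfl)
    refine le_trans (Real.sqrt_le_sqrt (Nat.cast_le.2 hab)) ?_
    push_cast
    rw [Real.sqrt_le_iff]
    refine ⟨by positivity, ?_⟩
    nlinarith [Real.sq_sqrt (Nat.cast_nonneg a : (0 : ℝ) ≤ a),
      Real.sq_sqrt (Nat.cast_nonneg b : (0 : ℝ) ≤ b), Real.sqrt_nonneg (a : ℝ),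
      Real.sqrt_nonneg (b : ℝ)]

variable [Nonempty (Fin d)] (μ : Measure (Step d → ℝ)) [IsProbabilityMeasure μ] {l : Fin d → ℝ}

/-- The mean number of levels at the end of `2 ^ P` blocks is linear in `P`. -/
theorem levels_mean_le (hμ : ∀ᵐ p ∂μ, (∀ e, 0 < p e) ∧ ∑ e, p e = 1) (hq : ann μ (Good l) ≠ 0) :
    ∃ C : ℝ, 0 ≤ C ∧ ∀ P : ℕ, ∫⁻ X in Good l, (levels (X (blockT l (2 ^ P) X)) : ℝ≥0∞) ∂annM μ ≤
      ENNReal.ofReal (C * (P + 1)) := by
  set ν := (annM μ).restrict (Good l) with hν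
  have hνu : ν Set.univ ≤ 1 := (Measure.restrict_apply_le _ _).trans prob_le_one
  set F : Fin d → (ℕ → Site d) → ℝ≥0∞ := fun c X => ENNReal.ofReal √(blockX l c X : ℝ)
  have hF : ∀ c, Measurable (F c) := fun c =>
    (measurable_of_countable fun x : ℕ => ENNReal.ofReal √(x : ℝ)).comp (measurable_blockX c)
  set E : Fin d → ℝ := fun c => (∫⁻ X, F c X ∂ν).toReal
  have hE : ∀ c, ∫⁻ X, F c X ∂ν = ENNReal.ofReal (E c) := fun c => by
    refine (ENNReal.ofReal_toReal ?_).symm
    have := lateralPin μ hμ hq c (1 / 2) (by norm_num) (by norm_num)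
    simpa only [F, Real.sqrt_eq_rpow] using this
  have hE0 : ∀ c, 0 ≤ E c := fun c => ENNReal.toReal_nonneg
  refine ⟨∑ c, (20 + 8 * E c), Finset.sum_nonneg fun c _ => by have := hE0 c; positivity,
    fun P => ?_⟩
  have hpt : ∀ᵐ X ∂ν, (levels (X (blockT l (2 ^ P) X)) : ℝ≥0∞) ≤
      ∑ c, (ENNReal.ofReal (8 * P + 10) +
        ENNReal.ofReal (8 / 2 ^ P) * ∑ i ∈ Finset.range (2 ^ P), F c ((nextB l)^[i] X)) := by
    filter_upwards [ae_iterate_good μ hμ hq] with X hX
    rw [levels, Nat.cast_sum]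
    refine Finset.sum_le_sum fun c _ => ?_
    set x := (X (blockT l (2 ^ P) X) c).natAbs
    have h1 := log_le_sqrt x P
    have h2 := sqrt_end_le l c (2 ^ P) X hX.1
    set S := ∑ i ∈ Finset.range (2 ^ P), √(blockX l c ((nextB l)^[i] X) : ℝ)
    have hS : 0 ≤ S := Finset.sum_nonneg fun i _ => Real.sqrt_nonneg _
    have h3 : √(1 + x : ℝ) ≤ 1 + S := by
      rw [Real.sqrt_le_iff]
      refine ⟨by positivity, ?_⟩
      nlinarith [Real.sq_sqrt (Nat.cast_nonneg x : (0 : ℝ) ≤ x),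
        mul_self_le_mul_self (Real.sqrt_nonneg (x : ℝ)) h2]
    have hP : (1 : ℝ) ≤ 2 ^ P := one_le_pow₀ one_le_two
    have h4 : ((2 * (Nat.log 2 (1 + x) + 1) : ℕ) : ℝ) ≤ (8 * P + 10) + 8 / 2 ^ P * S := by
      push_cast
      have h5 : 4 * √(1 + x : ℝ) / 2 ^ P ≤ 4 + 4 * S / 2 ^ P := by
        rw [div_le_iff₀ (by positivity), add_mul, div_mul_cancel₀ _ (by positivity)]
        nlinarith
      have h6 : 8 / 2 ^ P * S = 2 * (4 * S / 2 ^ P) := by ring
      linarith
    rw [← ENNReal.ofReal_natCast, ← ENNReal.ofReal_sum_of_nonneg fun i _ => Real.sqrt_nonneg _,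
      ← ENNReal.ofReal_mul (by positivity), ← ENNReal.ofReal_add (by positivity) (by positivity)]
    exact ENNReal.ofReal_le_ofReal h4
  refine (lintegral_mono_ae hpt).trans ?_
  have hm : ∀ c i, Measurable fun X : ℕ → Site d => F c ((nextB l)^[i] X) := fun c i =>
    (hF c).comp (measurable_nextB.iterate i)
  rw [lintegral_finsetSum _ fun c _ =>
      ((Finset.measurable_sum _ fun i _ => hm c i).const_mul _).const_add _,
    Finset.sum_mul, ENNReal.ofReal_sum_of_nonneg fun c _ => by have := hE0 c; positivity]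
  refine Finset.sum_le_sum fun c _ => ?_
  rw [lintegral_add_left measurable_const, lintegral_const,
    lintegral_const_mul _ (Finset.measurable_sum _ fun i _ => hm c i),
    lintegral_finsetSum _ fun i _ => hm c i]
  have hi : ∀ i, ∫⁻ X, F c ((nextB l)^[i] X) ∂ν = ENNReal.ofReal (E c) := fun i => by
    rw [hν, lintegral_iterate μ hμ hq i (hF c)]
    exact hE c
  simp only [hi, Finset.sum_const, Finset.card_range, nsmul_eq_mul]
  refine le_trans (add_le_add (mul_le_mul_right hνu _) le_rfl) ?_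
  rw [mul_one, ← ENNReal.ofReal_natCast, ← ENNReal.ofReal_mul (Nat.cast_nonneg _),
    ← ENNReal.ofReal_mul (by positivity),
    ← ENNReal.ofReal_add (by positivity) (by have := hE0 c; positivity)]
  refine ENNReal.ofReal_le_ofReal ?_
  push_cast
  have h2P : (2 : ℝ) ^ P ≠ 0 := by positivity
  have he : 8 / 2 ^ P * ((2 : ℝ) ^ P * E c) = 8 * E c := by field_simp
  rw [he]
  nlinarith [hE0 c, Nat.cast_nonneg (α := ℝ) P, mul_nonneg (hE0 c) (Nat.cast_nonneg (α := ℝ) P)]

/-- **The upper half.** -/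
theorem highPin (hμ : ∀ᵐ p ∂μ, (∀ e, 0 < p e) ∧ ∑ e, p e = 1) (hL : LaplacePin μ l)
    (hW : WllnPin μ l) : HighPin μ l := by
  intro hq hq' η hη
  have hqa : ann μ (Good l) ≠ 0 := by rwa [ann_eq μ measurableSet_Good]
  obtain ⟨ρ, hρ0, hρ1, hρ⟩ := hL hq
  obtain ⟨ν₀, hν₀, hν⟩ := hW hq
  obtain ⟨K, hK0, hK⟩ := levels_mean_le μ hμ hqa
  set W := (∑' t : Site d, (2⁻¹ : ℝ≥0∞) ^ levels t).toReal
  have hW0 : 0 ≤ W := ENNReal.toReal_nonneg
  set a := -Real.log ρ / 4
  have ha : 0 < a := by have := Real.log_neg hρ0 hρ1; simp only [a]; linarith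
  refine ⟨a, 2 * ν₀ + a, 4 * K + W + 2, ha, by linarith, by positivity, ?_⟩
  have hev1 : Tendsto (fun P : ℕ =>
      annM μ (Good l ∩ {X | ν₀ * (2 ^ P : ℕ) <
        |dot l (X (blockT l (2 ^ P) X)) - ν₀ * (2 ^ P : ℕ)|})) atTop (𝓝 0) :=
    (hν ν₀ hν₀).comp (tendsto_pow_atTop_atTop_of_one_lt (one_lt_two : (1 : ℕ) < 2))
  have hev2 : Tendsto (fun P : ℕ => ENNReal.ofReal (Real.exp (-a * (2 : ℝ) ^ P))) atTop (𝓝 0) := by
    have h : Tendsto (fun P : ℕ => -a * (2 : ℝ) ^ P) atTop atBot :=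
      (tendsto_pow_atTop_atTop_of_one_lt (one_lt_two : (1 : ℝ) < 2)).const_mul_atTop_of_neg
        (by linarith)
    simpa [Function.comp_def] using (ENNReal.tendsto_ofReal (Real.tendsto_exp_atBot.comp h))
  have hη2 : (0 : ℝ≥0∞) < ENNReal.ofReal (η / 2) := ENNReal.ofReal_pos.2 (by linarith)
  filter_upwards [hev1.eventually (eventually_le_nhds hη2),
    hev2.eventually (eventually_le_nhds hη2), eventually_ge_atTop 1] with P h1 h2 hP lam i₀ hlam
  rcases eq_or_ne lam ⊤ with rfl | htop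
  · refine le_trans le_top (le_add_left (le_of_eq ?_))
    rw [ENNReal.mul_top (by simp only [ne_eq, ENNReal.ofReal_eq_zero, not_le]; positivity),
      ENNReal.top_mul]
    exact ne_of_gt (lt_of_lt_of_le (pos_iff_ne_zero.2 (by simp)) le_add_self)
  set n := 2 ^ P with hn
  set lo := a * (2 : ℝ) ^ P
  set hi := (2 * ν₀ + a) * (2 : ℝ) ^ P
  set A₁ : Set (ℕ → Site d) := {X | dot l (X (blockT l (n / 2) X)) ≤ lo}
  set A₂ : Set (ℕ → Site d) :=
    {X | ν₀ * (n : ℝ) < |dot l (X (blockT l n X)) - ν₀ * (n : ℝ)|}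
  have hsub : High l n ≤ᵐ[pairLaw μ l]
      (HighMeet l n lo hi ∪ Prod.fst ⁻¹' (A₁ ∪ A₂) : Set _) := by
    filter_upwards [(Measure.quasiMeasurePreserving_fst
      (μ := (annM μ).restrict (Good l)) (ν := (annM μ).restrict (Good (-l)))).ae
      (ae_iterate_good μ hμ hqa)] with q hX hq2
    obtain ⟨i, hi1, hi2, ⟨k, hk⟩, hfirst⟩ := hq2
    by_cases hA : q.1 ∈ A₁ ∪ A₂
    · exact Or.inr hA
    refine Or.inl ⟨i, hi2, ?_, ?_, ⟨k, sub_eq_iff_eq_add'.1 hk⟩,
      fun i' h' j hj => hfirst i' h' j (sub_eq_iff_eq_add'.2 hj)⟩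
    · have h3 := (reg_blockT hX.1 hX.2 (n / 2)).1.2.1 (i - blockT l (n / 2) q.1)
      simp only [shiftP, Nat.add_zero, Nat.add_sub_cancel' hi1] at h3
      exact (not_le.1 fun h => hA (Or.inl h)).le.trans h3
    · by_contra hc
      refine hA (Or.inr ?_)
      show ν₀ * (n : ℝ) < |dot l (q.1 (blockT l n q.1)) - ν₀ * (n : ℝ)|
      refine lt_of_lt_of_le ?_ (le_abs_self _)
      have hn' : (n : ℝ) = 2 ^ P := by simp [hn]
      have hp : (0 : ℝ) < 2 ^ P := by positivity
      rw [hn']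
      simp only [hi, not_le] at hc
      nlinarith
  have hA : pairLaw μ l (Prod.fst ⁻¹' (A₁ ∪ A₂)) ≤ ENNReal.ofReal η := by
    rw [← Set.prod_univ, pairLaw, Measure.prod_prod]
    refine (mul_le_mul_right ((Measure.restrict_apply_le _ _).trans prob_le_one) _).trans ?_
    rw [mul_one, Measure.restrict_apply' measurableSet_Good, Set.inter_comm,
      Set.inter_union_distrib_left]
    refine (measure_union_le _ _).trans (le_of_le_of_eq
      (add_le_add (le_trans ((hρ _ _).trans (le_of_eq ?_)) h2) h1)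
      (by rw [← ENNReal.ofReal_add (by linarith) (by linarith), add_halves]))
    rw [← Real.exp_log hρ0, ← Real.exp_nat_mul, ← Real.exp_add]
    congr 2
    have h2n : n / 2 = 2 ^ (P - 1) := by
      obtain ⟨P, rfl⟩ := Nat.exists_eq_add_of_le hP
      simp [hn, pow_add]
    have h2P : (2 : ℝ) ^ P = 2 * 2 ^ (P - 1) := by
      rw [← pow_succ']; congr 1; omega
    simp only [lo, h2n, h2P, a]
    push_cast
    ring
  have hmeet := high_le μ hμ hqa n lo hi (lt_of_lt_of_le one_pos hlam).ne' htop levels i₀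
  have hlev : ∑' t, (2 * (levels t : ℝ≥0∞) * ((annM μ).restrict (Good l))
      {X | X (blockT l n X) = t} + (2⁻¹ : ℝ≥0∞) ^ levels t) ≤
      ENNReal.ofReal (4 * K + W + 2) * P := by
    rw [ENNReal.tsum_add]
    simp only [mul_assoc, ENNReal.tsum_mul_left]
    have hg : Measurable fun X : ℕ → Site d => X (blockT l n X) :=
      measurable_apply_time (measurable_blockT n)
    have e : ∑' t, (levels t : ℝ≥0∞) * ((annM μ).restrict (Good l)) {X | X (blockT l n X) = t} =
        ∫⁻ X in Good l, (levels (X (blockT l n X)) : ℝ≥0∞) ∂annM μ := by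
      rw [← lintegral_map (measurable_of_countable fun t => (levels t : ℝ≥0∞)) hg,
        lintegral_countable']
      refine tsum_congr fun t => ?_
      rw [Measure.map_apply hg (measurableSet_singleton t)]
      rfl
    rw [e, ← ENNReal.ofReal_toReal (tsum_levels_ne_top (d := d))]
    refine le_trans (add_le_add (mul_le_mul_right (hK P) _) le_rfl) ?_
    have h2m : (2 : ℝ≥0∞) * ENNReal.ofReal (K * (P + 1)) = ENNReal.ofReal (2 * (K * (P + 1))) := by
      rw [ENNReal.ofReal_mul two_pos.le, ENNReal.ofReal_ofNat]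
    rw [h2m, ← ENNReal.ofReal_add (by positivity) hW0, ← ENNReal.ofReal_natCast P,
      ← ENNReal.ofReal_mul (by positivity)]
    refine ENNReal.ofReal_le_ofReal ?_
    have hP' : (1 : ℝ) ≤ P := by exact_mod_cast hP
    show 2 * (K * (P + 1)) + W ≤ (4 * K + W + 2) * P
    nlinarith [mul_le_mul_of_nonneg_left hP' hK0, mul_le_mul_of_nonneg_left hP' hW0]
  have h2C : (2 : ℝ≥0∞) ≤ ENNReal.ofReal (4 * K + W + 2) := by
    rw [← ENNReal.ofReal_ofNat 2]
    exact ENNReal.ofReal_le_ofReal (by linarith)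
  refine (measure_mono_ae hsub).trans ((measure_union_le _ _).trans ?_)
  refine (add_le_add hmeet hA).trans ?_
  rw [add_comm _ (ENNReal.ofReal η), add_assoc]
  refine add_le_add le_rfl (add_le_add ?_ ?_)
  · rw [ENNReal.div_eq_inv_mul]
    exact mul_le_mul_right hlev _
  · rw [mul_comm (ENNReal.ofReal (4 * K + W + 2)) lam, mul_assoc lam]
    refine mul_le_mul_right ?_ lam
    rw [mul_add, band]
    refine add_le_add ?_ (le_mul_of_one_le_left bot_le (le_trans one_le_two h2C))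
    rw [mul_assoc]
    exact mul_le_mul' h2C (mul_le_mul_left (by exact_mod_cast Nat.le_succ i₀) _)

end Vale.Agent.P147.Flip.Full
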