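import Vale.Agent.P147.Flip.Full.Pins
import Vale.Agent.P147.Flip.Disjoint
import Vale.Agent.P147.Flip.Height

/-!
# Meeting the lower half of the blocks

The top of the stack is resampled, at the price of the likelihood gain; then the second walk starts
independently far above the lower half and can reach it only through the strip.
-/

namespace Vale.Agent.P147.Flip.Full

open MeasureTheory Filter Topology Set Vale.Agent.P147.Balanced Vale.Agent.P147.Linear Vale.Agent.P147.Flip
open scoped ENNReal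

variable {d : ℕ}

namespace LowAux

/-- Site `i` has height at least `a` and no earlier one is higher than `b`. -/
def Win (l : Fin d → ℝ) (a b : ℝ) (i : ℕ) (X : ℕ → Site d) : Prop :=
  a ≤ dot l (X i) ∧ ∀ j ≤ i, dot l (X j) ≤ b

/-- The second path, moved by `g`, visits a site of the window; only `i` with `P i` count. -/
def Visit (l : Fin d → ℝ) (a b : ℝ) (P : ℕ → (ℕ → Site d) → Prop) (g : (ℕ → Site d) → Site d) :
    Set ((ℕ → Site d) × (ℕ → Site d)) :=
  {q | ∃ i, P i q.1 ∧ Win l a b i q.1 ∧ ∃ k, q.1 i = q.2 k + g q.1}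

/-- A block of the first few climbs back by at least `K`. -/
def Dip (l : Fin d → ℝ) (K H : ℝ) : Set (ℕ → Site d) :=
  {Y | ∃ j' j, j' ≤ j ∧ dot l (Y j) ≤ H ∧ K ≤ dot l (Y j') - dot l (Y j)}

lemma measurableSet_Win (l : Fin d → ℝ) (a b : ℝ) (i : ℕ) :
    MeasurableSet {X : ℕ → Site d | Win l a b i X} :=
  (measurableSet_inR {z | a ≤ dot l z} i).inter (measurableSet_forall_le {z | dot l z ≤ b} i)

lemma measurableSet_Visit (l : Fin d → ℝ) (a b : ℝ) {P : ℕ → (ℕ → Site d) → Prop}
    (hP : ∀ i, MeasurableSet {X | P i X}) {g : (ℕ → Site d) → Site d} (hg : Measurable g) :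
    MeasurableSet (Visit l a b P g) := by
  rw [show Visit l a b P g = ⋃ i, Prod.fst ⁻¹' ({X | P i X} ∩ {X | Win l a b i X}) ∩
      ⋃ k, {q : (ℕ → Site d) × (ℕ → Site d) | q.1 i = q.2 k + g q.1} by ext; simp [Visit, and_assoc]]
  refine MeasurableSet.iUnion fun i => (measurable_fst ((hP i).inter (measurableSet_Win l a b i))).inter
    (MeasurableSet.iUnion fun k => ?_)
  refine measurableSet_eq_fun ((measurable_pi_apply i).comp measurable_fst) ?_
  exact ((measurable_pi_apply k).comp measurable_snd).add (hg.comp measurable_fst)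

lemma blockT_add (l : Fin d → ℝ) (a b : ℕ) (X : ℕ → Site d) :
    blockT l (a + b) X = blockT l a X + blockT l b ((nextB l)^[a] X) := by
  simp only [blockT, Finset.sum_range_add]
  congr 1
  refine Finset.sum_congr rfl fun i _ => ?_
  rw [add_comm a i, Function.iterate_add_apply]

lemma measurable_endPt (l : Fin d → ℝ) (m : ℕ) :
    Measurable fun X : ℕ → Site d => X (blockT l m X) :=
  measurable_apply_time (measurable_blockT m)

variable [Nonempty (Fin d)] (μ : Measure (Step d → ℝ)) [IsProbabilityMeasure μ] {l : Fin d → ℝ}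

lemma pairLaw_le_one (S : Set ((ℕ → Site d) × (ℕ → Site d))) : pairLaw μ l S ≤ 1 := by
  refine (measure_mono (Set.subset_univ S)).trans ?_
  rw [← Set.univ_prod_univ, pairLaw, Measure.prod_prod, Measure.restrict_apply_univ,
    Measure.restrict_apply_univ]
  exact mul_le_one' prob_le_one prob_le_one

lemma pairLaw_fst_le (E : Set (ℕ → Site d)) :
    pairLaw μ l (Prod.fst ⁻¹' E) ≤ annM μ (E ∩ Good l) := by
  rw [← Set.prod_univ, pairLaw, Measure.prod_prod, Measure.restrict_apply' measurableSet_Good,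
    Measure.restrict_apply_univ]
  exact mul_le_of_le_one_right' prob_le_one

lemma pairLaw_snd_le (E : Set (ℕ → Site d)) :
    pairLaw μ l (Prod.snd ⁻¹' E) ≤ annM μ (E ∩ Good (-l)) := by
  rw [← Set.univ_prod, pairLaw, Measure.prod_prod, Measure.restrict_apply_univ,
    Measure.restrict_apply' measurableSet_Good]
  exact mul_le_of_le_one_left' prob_le_one

/-- The end of `m` blocks has law `pT`. -/
lemma tsum_pT (m : ℕ) (G : Site d → ℝ≥0∞) :
    ∑' v, pT μ l m v * G v =
      (∫⁻ X, G (X (blockT l m X)) ∂(annM μ).restrict (Good l)) / annM μ (Good l) := by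
  rw [← lintegral_map (measurable_of_countable G) (measurable_endPt l m), lintegral_countable',
    div_eq_mul_inv, ← ENNReal.tsum_mul_right]
  refine tsum_congr fun v => ?_
  rw [Measure.map_apply (measurable_endPt l m) (measurableSet_singleton v),
    Measure.restrict_apply' measurableSet_Good, pT, div_eq_mul_inv, Set.inter_comm (Good l)]
  show _ = G v * annM μ ({X | X (blockT l m X) = v} ∩ Good l) * _
  ring

lemma tsum_pT_le_one (m : ℕ) : ∑' v, pT μ l m v ≤ 1 := by
  have h := tsum_pT μ (l := l) m fun _ => 1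
  simp only [mul_one, lintegral_one, Measure.restrict_apply_univ] at h
  rw [h]
  exact ENNReal.div_self_le_one

/-- A block event and the displacement of the following blocks are independent. -/
lemma inter_displ (hs : SplitPin μ l) (hq : annM μ (Good l) ≠ 0) {k : ℕ} {A : Set (ℕ → Site d)}
    (hA : BlockEvent l k A) {B : Set (ℕ → Site d)} (hB : MeasurableSet B) :
    (annM μ).restrict (Good l) (A ∩ (nextB l)^[k] ⁻¹' B) =
      (annM μ).restrict (Good l) A * (annM μ (Good l ∩ B) / annM μ (Good l)) := by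
  rw [Measure.restrict_apply' measurableSet_Good, Measure.restrict_apply' measurableSet_Good,
    Set.inter_comm A (Good l), Set.inter_comm _ (Good l), ← Set.inter_assoc, mul_div_assoc',
    ← hs hq k A B hA hB, ENNReal.mul_div_cancel_right hq (measure_ne_top _ _)]

/-- The convolution inequality of the laws of the displacements. -/
lemma pT_add_ne_zero (hs : SplitPin μ l) (hμ : ∀ᵐ p ∂μ, (∀ e, 0 < p e) ∧ ∑ e, p e = 1)
    (hq : annM μ (Good l) ≠ 0) {M T : ℕ} {u v : Site d} (hu : pT μ l M u ≠ 0)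
    (hv : pT μ l T v ≠ 0) : pT μ l (M + T) (u + v) ≠ 0 := by
  have hqt : annM μ (Good l) ≠ ⊤ := measure_ne_top _ _
  have hA : BlockEvent l M {X : ℕ → Site d | X (blockT l M X) = u} := by
    refine ⟨measurable_endPt l M (measurableSet_singleton u), fun X Y hT h => ?_⟩
    show X (blockT l M X) = u ↔ Y (blockT l M Y) = u
    rw [← hT, h _ le_rfl]
  have hB : MeasurableSet {X : ℕ → Site d | X (blockT l T X) = v} :=
    measurable_endPt l T (measurableSet_singleton v)
  have h := inter_displ μ hs hq hA hB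
  have hle : (annM μ).restrict (Good l) ({X | X (blockT l M X) = u} ∩
      (nextB l)^[M] ⁻¹' {X | X (blockT l T X) = v}) ≤
      (annM μ).restrict (Good l) {X | X (blockT l (M + T) X) = u + v} := by
    refine measure_mono_ae ?_
    filter_upwards [ae_iterate_good μ hμ (by rwa [ann_eq μ measurableSet_Good])] with X hX h
    obtain ⟨h1, h2⟩ := h
    simp only [Set.mem_preimage, Set.mem_ofPred_eq, iterate_nextB_apply M _ X hX.1] at h2
    show X (blockT l (M + T) X) = u + v
    rw [blockT_add, ← h2, show X (blockT l M X) = u from h1]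
    abel
  rw [Measure.restrict_apply' measurableSet_Good, Set.inter_comm _ (Good l)] at h hle
  intro h0
  rw [pT, ENNReal.div_eq_zero_iff] at h0
  rcases h0 with h0 | h0
  swap
  · exact hqt h0
  rw [Set.inter_comm (Good l) {X | X (blockT l (M + T) X) = u + v}] at h0
  rw [Measure.restrict_apply' measurableSet_Good, h0, nonpos_iff_eq_zero] at hle
  rw [hle, eq_comm, mul_eq_zero] at h
  rcases h with h | h
  · rw [Measure.restrict_apply' measurableSet_Good, Set.inter_comm] at h
    exact hu (by rw [pT, h, ENNReal.zero_div])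
  · exact hv h

/-- Resampling the top of the stack. -/
theorem resample (hμ : ∀ᵐ p ∂μ, (∀ e, 0 < p e) ∧ ∑ e, p e = 1) (hs : SplitPin μ l)
    (hq : annM μ (Good l) ≠ 0) {M T N₂ : ℕ} (hMT : M + T = N₂) (a b : ℝ) {L : ℝ} (hL : 0 < L) :
    pairLaw μ l (Visit l a b (fun i X => i < blockT l M X) fun X => X (blockT l N₂ X)) ≤
      ENNReal.ofReal (Real.exp L) *
          (∑' z, pT μ l N₂ z * pairLaw μ l (Visit l a b (fun _ _ => True) fun _ => z)) +
        gain μ l T N₂ / ENNReal.ofReal L := by
  set ν := (annM μ).restrict (Good l) with hν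
  set ν' := (annM μ).restrict (Good (-l)) with hν'
  set S : Site d → Set ((ℕ → Site d) × (ℕ → Site d)) := fun v =>
    Visit l a b (fun i X => i < blockT l M X) fun X => X (blockT l M X) + v
  set S' : Site d → Set ((ℕ → Site d) × (ℕ → Site d)) := fun v =>
    Visit l a b (fun _ _ => True) fun X => X (blockT l M X) + v
  set C : Site d → Set ((ℕ → Site d) × (ℕ → Site d)) := fun z =>
    Visit l a b (fun _ _ => True) fun _ => z
  set B : Site d → Set (ℕ → Site d) := fun v => {X | X (blockT l T X) = v}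
  have hPm : ∀ i, MeasurableSet {X : ℕ → Site d | i < blockT l M X} := fun i =>
    measurableSet_lt measurable_const (measurable_blockT M)
  have hgm : ∀ v, Measurable fun X : ℕ → Site d => X (blockT l M X) + v := fun v =>
    (measurable_endPt l M).add_const v
  have hSm : ∀ v, MeasurableSet (S v) := fun v => measurableSet_Visit l a b hPm (hgm v)
  have hS'm : ∀ v, MeasurableSet (S' v) := fun v =>
    measurableSet_Visit l a b (fun _ => MeasurableSet.univ) (hgm v)
  have hCm : ∀ z, MeasurableSet (C z) := fun z =>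
    measurableSet_Visit l a b (fun _ => MeasurableSet.univ) measurable_const
  have hBm : ∀ v, MeasurableSet (B v) := fun v =>
    measurable_endPt l T (measurableSet_singleton v)
  have hit : Measurable ((nextB (d := d) l)^[M]) := measurable_nextB.iterate M
  have hq0 : ann μ (Good l) ≠ 0 := by rwa [ann_eq μ measurableSet_Good]
  -- split along the displacement of the last blocks
  have h1 : pairLaw μ l (Visit l a b (fun i X => i < blockT l M X) fun X => X (blockT l N₂ X)) ≤
      ∑' v, pT μ l T v * pairLaw μ l (S' v) := by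
    refine le_trans (le_trans (measure_mono_ae (t := ⋃ v, S v ∩
      Prod.fst ⁻¹' ((nextB l)^[M] ⁻¹' B v)) ?_) (measure_iUnion_le _)) ?_
    · filter_upwards [(Measure.quasiMeasurePreserving_fst (μ := ν) (ν := ν')).ae
        (ae_iterate_good μ hμ hq0)] with q hq' hm
      obtain ⟨i, hi, hw, k, hk⟩ := hm
      refine Set.mem_iUnion.2 ⟨((nextB l)^[M] q.1) (blockT l T ((nextB l)^[M] q.1)),
        ⟨i, hi, hw, k, ?_⟩, rfl⟩
      simp only
      rw [hk, ← hMT]
      simp only
      rw [blockT_add, iterate_nextB_apply M _ q.1 hq'.1]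
      abel
    · refine ENNReal.tsum_le_tsum fun v => ?_
      refine le_trans (le_of_eq ?_) (mul_le_mul_right (measure_mono (show S v ⊆ S' v from
        fun q ⟨i, _, hw, hk⟩ => ⟨i, trivial, hw, hk⟩)) _)
      show ν.prod ν' (S v ∩ Prod.fst ⁻¹' ((nextB l)^[M] ⁻¹' B v)) = pT μ l T v * ν.prod ν' (S v)
      rw [Measure.prod_apply_symm ((hSm v).inter (measurable_fst (hit (hBm v)))),
        Measure.prod_apply_symm (hSm v),
        ← lintegral_const_mul _ (measurable_measure_prodMk_right (hSm v))]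
      refine lintegral_congr fun Y => ?_
      have hA : BlockEvent l M ((fun X => (X, Y)) ⁻¹' S v) := by
        refine ⟨measurable_prodMk_right (hSm v), fun X X' hT h => ?_⟩
        simp only [Set.mem_preimage, S, Visit, Set.mem_ofPred_eq]
        rw [← hT, h _ le_rfl]
        refine exists_congr fun i => and_congr_right fun hi => ?_
        rw [h i hi.le]
        refine and_congr ?_ Iff.rfl
        simp only [Win]
        rw [h i hi.le]
        exact and_congr_right fun _ => forall₂_congr fun j hj => by rw [h j (hj.trans hi.le)]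
      rw [mul_comm]
      exact inter_displ μ hs hq hA (hBm v)
  -- the likelihood ratio
  set G : Site d → ℝ≥0∞ := fun u => ∑' v, pT μ l T v *
    ENNReal.ofReal (Real.log ((pT μ l T v).toReal / (pT μ l N₂ (u + v)).toReal))
  have hGint : ∫⁻ X, G (X (blockT l M X)) ∂ν ≤ gain μ l T N₂ := by
    have h := tsum_pT μ (l := l) M G
    have hg : gain μ l T N₂ = ∑' u, pT μ l M u * G u := by
      rw [gain, show N₂ - T = M by omega]
      simp only [G, ← ENNReal.tsum_mul_left, mul_assoc]
    rw [hg, h]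
    exact le_trans (le_of_eq (div_one _).symm) (ENNReal.div_le_div le_rfl prob_le_one)
  have hnz : ∀ᵐ X ∂ν, pT μ l M (X (blockT l M X)) ≠ 0 := by
    rw [ae_iff]
    refine measure_mono_null (t := ⋃ u ∈ {u | pT μ l M u = 0}, {X | X (blockT l M X) = u})
      (fun X hX => ?_) ((measure_biUnion_null_iff (Set.to_countable _)).2 fun u hu => ?_)
    · simp only [Set.mem_ofPred_eq, not_not] at hX
      exact Set.mem_biUnion (show X (blockT l M X) ∈ {u | pT μ l M u = 0} from hX) rfl
    · simp only [Set.mem_ofPred_eq, pT, ENNReal.div_eq_zero_iff, measure_ne_top, or_false] at hu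
      rw [hν, Measure.restrict_apply' measurableSet_Good, Set.inter_comm]
      exact hu
  have hpt : ∀ᵐ X ∂ν, ∑' v, pT μ l T v * ν' (Prod.mk X ⁻¹' S' v) ≤
      ENNReal.ofReal (Real.exp L) * ∑' z, pT μ l N₂ z * ν' (Prod.mk X ⁻¹' C z) +
        G (X (blockT l M X)) / ENNReal.ofReal L := by
    filter_upwards [hnz] with X hX
    set u := X (blockT l M X)
    rw [← (Equiv.addLeft u).tsum_eq (fun z => pT μ l N₂ z * ν' (Prod.mk X ⁻¹' C z))]
    simp only [Equiv.coe_addLeft]
    rw [← ENNReal.tsum_mul_left, div_eq_mul_inv (G u), ← ENNReal.tsum_mul_right, ← ENNReal.tsum_add]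
    refine ENNReal.tsum_le_tsum fun v => ?_
    set s := ν' (Prod.mk X ⁻¹' S' v) with hsdef
    show pT μ l T v * s ≤ ENNReal.ofReal (Real.exp L) * (pT μ l N₂ (u + v) * s) + _
    by_cases hc : pT μ l T v ≤ ENNReal.ofReal (Real.exp L) * pT μ l N₂ (u + v)
    · exact le_add_right ((mul_le_mul_left hc s).trans (le_of_eq (mul_assoc _ _ _)))
    refine le_add_left ?_
    have ha : pT μ l T v ≠ 0 := fun h => hc (by rw [h]; exact bot_le)
    have hb : pT μ l N₂ (u + v) ≠ 0 := hMT ▸ pT_add_ne_zero μ hs hμ hq hX ha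
    have htop : ∀ m w, pT μ l m w ≠ ⊤ := fun m w => ENNReal.div_ne_top (measure_ne_top _ _) hq
    have hbp : 0 < (pT μ l N₂ (u + v)).toReal := ENNReal.toReal_pos hb (htop _ _)
    have hlt : Real.exp L * (pT μ l N₂ (u + v)).toReal < (pT μ l T v).toReal := by
      have h := ENNReal.toReal_strict_mono (htop _ _) (not_le.1 hc)
      rwa [ENNReal.toReal_mul, ENNReal.toReal_ofReal (Real.exp_pos L).le] at h
    have hlog : L ≤ Real.log ((pT μ l T v).toReal / (pT μ l N₂ (u + v)).toReal) := by
      rw [← Real.log_exp L]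
      exact Real.log_le_log (Real.exp_pos L) ((le_div_iff₀ hbp).2 hlt.le)
    rw [mul_assoc]
    refine mul_le_mul_right (le_trans ((Measure.restrict_apply_le _ _).trans prob_le_one) ?_) _
    rw [← div_eq_mul_inv, ENNReal.le_div_iff_mul_le (Or.inl (by simpa using hL))
      (Or.inl ENNReal.ofReal_ne_top), one_mul]
    exact ENNReal.ofReal_le_ofReal hlog
  refine h1.trans ?_
  have hslice : ∀ v, Measurable fun X => ν' (Prod.mk X ⁻¹' S' v) := fun v =>
    measurable_measure_prodMk_left (hS'm v)
  have hsliceC : ∀ z, Measurable fun X => ν' (Prod.mk X ⁻¹' C z) := fun z =>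
    measurable_measure_prodMk_left (hCm z)
  calc ∑' v, pT μ l T v * pairLaw μ l (S' v)
      = ∫⁻ X, ∑' v, pT μ l T v * ν' (Prod.mk X ⁻¹' S' v) ∂ν := by
        rw [lintegral_tsum fun v => ((hslice v).const_mul _).aemeasurable]
        refine tsum_congr fun v => ?_
        rw [lintegral_const_mul _ (hslice v), pairLaw, Measure.prod_apply (hS'm v)]
    _ ≤ ∫⁻ X, (ENNReal.ofReal (Real.exp L) * ∑' z, pT μ l N₂ z * ν' (Prod.mk X ⁻¹' C z) +
          G (X (blockT l M X)) / ENNReal.ofReal L) ∂ν := lintegral_mono_ae hpt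
    _ ≤ _ := by
        rw [lintegral_add_left ((Measurable.ennreal_tsum fun z => (hsliceC z).const_mul _).const_mul _)]
        refine add_le_add (le_of_eq ?_) ?_
        · rw [lintegral_const_mul _ (Measurable.ennreal_tsum fun z => (hsliceC z).const_mul _),
            lintegral_tsum fun z => ((hsliceC z).const_mul _).aemeasurable]
          congr 1
          refine tsum_congr fun z => ?_
          rw [lintegral_const_mul _ (hsliceC z), pairLaw, Measure.prod_apply (hCm z)]
        · simp only [div_eq_mul_inv]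
          rw [lintegral_mul_const _ (show Measurable fun X : ℕ → Site d => G (X (blockT l M X)) from
            (measurable_of_countable G).comp (measurable_endPt l M))]
          exact mul_le_mul_left hGint _

/-- A long climb back needs a tall block. -/
lemma dip_le (hμ : ∀ᵐ p ∂μ, (∀ e, 0 < p e) ∧ ∑ e, p e = 1) (hq : annM μ (Good l) ≠ 0) (n : ℕ)
    {K H : ℝ} (hK : 0 < K) :
    (annM μ).restrict (Good l) (Dip l K H) ≤
      (annM μ).restrict (Good l) {Y | dot l (Y (blockT l n Y)) ≤ H} +
        n * (annM μ).restrict (Good l) {Y | K ≤ blockH l Y} := by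
  set ν := (annM μ).restrict (Good l) with hν
  have hq0 : ann μ (Good l) ≠ 0 := by rwa [ann_eq μ measurableSet_Good]
  refine le_trans (measure_mono_ae (t := {Y | dot l (Y (blockT l n Y)) ≤ H} ∪
    ⋃ b ∈ Finset.range n, (nextB l)^[b] ⁻¹' {Y | K ≤ blockH l Y}) ?_)
    ((measure_union_le _ _).trans (add_le_add le_rfl
      ((measure_biUnion_finset_le _ _).trans ?_)))
  swap
  · refine (Finset.sum_le_card_nsmul _ _ (ν {Y | K ≤ blockH l Y}) fun b _ => ?_).trans
      (le_of_eq (by simp))
    exact (((measurePreserving_nextB μ hμ hq0).iterate b).measure_preimage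
      ((measurableSet_le measurable_const measurable_blockH).nullMeasurableSet)).le
  filter_upwards [ae_iterate_good μ hμ hq0] with Y hY hd
  obtain ⟨j', j, hj, hH, hKd⟩ := hd
  by_cases hn : dot l (Y (blockT l n Y)) ≤ H
  · exact Or.inl hn
  have hR := reg_blockT hY.1 hY.2
  have hstay : ∀ b i, blockT l b Y ≤ i → dot l (Y (blockT l b Y)) ≤ dot l (Y i) := fun b i hi => by
    have h := (hR b).1.2.1 (i - blockT l b Y)
    simpa [shiftP, Nat.add_sub_cancel' hi] using h
  have hex : ∃ b, j < blockT l b Y := by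
    refine ⟨n, ?_⟩
    by_contra hc
    exact hn ((hstay n j (not_lt.1 hc)).trans hH)
  classical
  have hlt : Nat.find hex ≤ n := Nat.find_le (by
    by_contra hc
    exact hn ((hstay n j (not_lt.1 hc)).trans hH))
  obtain ⟨b, hb⟩ : ∃ b, Nat.find hex = b + 1 := by
    refine Nat.exists_eq_succ_of_ne_zero fun h0 => ?_
    have := Nat.find_spec hex
    rw [h0, blockT_zero] at this
    exact Nat.not_lt_zero _ this
  have hj2 : j < blockT l (b + 1) Y := hb ▸ Nat.find_spec hex
  have hj1 : blockT l b Y ≤ j := not_lt.1 (Nat.find_min hex (by omega))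
  have hjb := hstay b j hj1
  have hj'b : blockT l b Y ≤ j' := by
    by_contra hc
    have := (hR b).1.1 j' (not_le.1 hc)
    linarith
  have hj'e := (hR (b + 1)).1.1 j' (lt_of_le_of_lt hj hj2)
  refine Or.inr (Set.mem_biUnion (Finset.mem_range.2 (by omega : b < n)) ?_)
  show K ≤ blockH l ((nextB l)^[b] Y)
  have hb1 : blockT l (b + 1) Y = blockT l b Y + firstT l ((nextB l)^[b] Y) := by
    simp [blockT, Finset.sum_range_succ]
  rw [blockH, iterate_nextB_apply b _ Y hY.1, iterate_nextB_apply b 0 Y hY.1, Nat.add_zero,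
    sub_self, dot_zero, sub_zero, Flip.dot_sub, ← hb1]
  linarith

/-- An independent second walk from high up seldom reaches the window. -/
theorem strip_bound (hμ : ∀ᵐ p ∂μ, (∀ e, 0 < p e) ∧ ∑ e, p e = 1) (y : Site d) {a b K H : ℝ}
    (hK : 0 ≤ K) (ha : 2 * K ≤ a) (hab : a ≤ b) (hby : b + K ≤ dot l y) (hy : dot l y ≤ H) :
    pairLaw μ l (Visit l a b (fun _ _ => True) fun _ => y) ≤
      2 * (ann μ (Reach0 l K) - ann μ (Pass0 l H)) +
        2 * (ann μ (Reach0 (-l) K) - ann μ (Pass0 (-l) H)) +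
        (annM μ).restrict (Good (-l)) (Dip (-l) K H) := by
  classical
  set ν := (annM μ).restrict (Good l) with hν
  set ν' := (annM μ).restrict (Good (-l)) with hν'
  set τ : (ℕ → Site d) → (ℕ → Site d) := fun Y i => Y i + y with hτ
  have hτm : Measurable τ := by fun_prop
  set SM := StripMeetCut l (dot l (0 : Site d)) (dot l y) b K
  have hanti : ∀ (l' : Fin d → ℝ), ann μ (Pass0 l' H) ≤ ann μ (Pass0 l' (dot l y - dot l (0 : Site d))) :=
    fun l' => lintegral_mono fun ω => measure_mono fun X ⟨n, h1, h2⟩ =>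
      ⟨n, lt_of_le_of_lt (by rw [dot_zero, sub_zero]; exact hy) h1, h2⟩
  have hmain : pairLaw μ l (Prod.map id τ ⁻¹' SM) ≤
      2 * (ann μ (Reach0 l K) - ann μ (Pass0 l H)) +
        2 * (ann μ (Reach0 (-l) K) - ann μ (Pass0 (-l) H)) := by
    rw [pairLaw, Measure.prod_restrict]
    refine (Measure.restrict_apply_le _ _).trans ?_
    refine (Measure.le_map_apply (measurable_id.prodMap hτm).aemeasurable _).trans ?_
    rw [← Measure.map_prod_map _ _ measurable_id hτm]
    have h0 : (annM μ).map (id : (ℕ → Site d) → (ℕ → Site d)) = annFrom μ 0 := by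
      simp [annFrom, Measure.map_id]
    rw [h0]
    refine (stripCut_le μ hμ 0 y (by linarith) (by rw [dot_zero, sub_zero]; linarith)).trans ?_
    exact add_le_add (mul_le_mul_right (tsub_le_tsub_left (hanti l) _) _)
      (mul_le_mul_right (tsub_le_tsub_left (hanti (-l)) _) _)
  refine le_trans (measure_mono_ae (t := Prod.map id τ ⁻¹' SM ∪ Prod.snd ⁻¹' Dip (-l) K H) ?_)
    ((measure_union_le _ _).trans (add_le_add hmain ?_))
  swap
  · rw [← Set.univ_prod, pairLaw, Measure.prod_prod, Measure.restrict_apply_univ]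
    exact mul_le_of_le_one_left' prob_le_one
  have hgood : ∀ l' : Fin d → ℝ, ∀ᵐ X ∂(annM μ).restrict (Good l'), X ∈ Stay l' ∧ X 0 = 0 :=
    fun l' => by
      filter_upwards [ae_restrict_mem measurableSet_Good,
        ae_restrict_of_ae (ae_annM_zero μ)] with X h1 h2
      exact ⟨h1.1, h2⟩
  filter_upwards [(Measure.quasiMeasurePreserving_fst (μ := ν) (ν := ν')).ae (hgood l),
    (Measure.quasiMeasurePreserving_snd (μ := ν) (ν := ν')).ae (hgood (-l))] with q hq1 hq2 hm
  obtain ⟨i, -, ⟨hai, hbi⟩, k, hk⟩ := hm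
  simp only at hk
  have hX : ∀ i', 0 ≤ dot l (q.1 i') := fun i' => by
    have h := hq1.1 i'
    rwa [hq1.2, dot_zero] at h
  have hW : ∀ j, dot l (τ q.2 j) ≤ dot l y ∧ dot (-l) (q.2 j) = dot l y - dot l (τ q.2 j) := by
    intro j
    have h := hq2.1 j
    rw [hq2.2, dot_zero, dot_negl] at h
    simp only [hτ, dot_add, dot_negl]
    constructor <;> linarith
  have hWk : τ q.2 k = q.1 i := hk.symm
  have hHk : dot (-l) (q.2 k) ≤ H := by rw [(hW k).2, hWk]; linarith [hX i]
  by_cases hdip : ∃ j' ≤ k, dot l (τ q.2 j') < 0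
  · obtain ⟨j', hj', hneg⟩ := hdip
    exact Or.inr ⟨j', k, hj', hHk, by rw [(hW j').2, (hW k).2, hWk]; linarith⟩
  push Not at hdip
  have hex : ∃ j, ∃ i', (∀ i'' ≤ i', dot l (q.1 i'') ∈ Set.Icc 0 b) ∧ q.1 i' = τ q.2 j :=
    ⟨k, i, fun i'' h => ⟨hX i'', hbi i'' h⟩, hWk.symm⟩
  set j0 := Nat.find hex
  obtain ⟨i0, hi0, he0⟩ := Nat.find_spec hex
  have hjk : j0 ≤ k := Nat.find_le ⟨i, fun i'' h => ⟨hX i'', hbi i'' h⟩, hWk.symm⟩
  by_cases hlow : dot l (q.1 i0) < K
  · exact Or.inr ⟨j0, k, hjk, hHk, by rw [(hW j0).2, (hW k).2, hWk, ← he0]; linarith⟩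
  push Not at hlow
  refine Or.inl ⟨i0, j0, he0, ?_, ?_, ?_, ?_, fun j' hj' i' hi' he => ?_⟩
  · rw [dot_zero, zero_add]; exact hlow
  · exact ((hi0 i0 le_rfl).2).trans (by linarith)
  · rw [dot_zero]; exact hi0
  · rw [dot_zero]; exact fun j' hj' => ⟨hdip j' (hj'.trans hjk), (hW j').1⟩
  · rw [dot_zero] at hi'
    exact Nat.find_min hex hj' ⟨i', hi', he⟩

/-- Letting the second walk lose its first blocks. -/
theorem shift_second (hμ : ∀ᵐ p ∂μ, (∀ e, 0 < p e) ∧ ∑ e, p e = 1) (hs : SplitPin μ (-l))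
    (hq : annM μ (Good (-l)) ≠ 0) (m : ℕ) (z : Site d) {a b D : ℝ} (hD : b + D < dot l z)
    {B : ℝ≥0∞}
    (hB : ∀ y : Site d, dot l z - D ≤ dot l y → dot l y ≤ dot l z →
      pairLaw μ l (Visit l a b (fun _ _ => True) fun _ => y) ≤ B) :
    pairLaw μ l (Visit l a b (fun _ _ => True) fun _ => z) ≤
      (annM μ).restrict (Good (-l)) {Y | D < dot (-l) (Y (blockT (-l) m Y))} + B := by
  classical
  set ν := (annM μ).restrict (Good l) with hν
  set ν' := (annM μ).restrict (Good (-l)) with hν'
  set C : Site d → Set ((ℕ → Site d) × (ℕ → Site d)) := fun y =>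
    Visit l a b (fun _ _ => True) fun _ => y
  have hq0 : ann μ (Good (-l)) ≠ 0 := by rwa [ann_eq μ measurableSet_Good]
  have hit : Measurable ((nextB (d := d) (-l))^[m]) := measurable_nextB.iterate m
  set E : Site d → Set ((ℕ → Site d) × (ℕ → Site d)) := fun w =>
    if dot (-l) w ≤ D ∧ 0 ≤ dot (-l) w then Prod.snd ⁻¹' {Y | Y (blockT (-l) m Y) = w} ∩
      Prod.map id ((nextB (-l))^[m]) ⁻¹' C (z + w) else ∅
  have hEle : ∀ w, pairLaw μ l (E w) ≤ pT μ (-l) m w * B := by
    intro w
    simp only [E]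
    split_ifs with hw
    swap
    · simp
    have hCm : MeasurableSet (C (z + w)) :=
      measurableSet_Visit l a b (fun _ => MeasurableSet.univ) measurable_const
    have hBm : MeasurableSet {Y : ℕ → Site d | Y (blockT (-l) m Y) = w} :=
      measurable_endPt (-l) m (measurableSet_singleton w)
    refine le_trans (le_of_eq ?_) (mul_le_mul_right (hB (z + w) ?_ ?_) _)
    · show ν.prod ν' (Prod.snd ⁻¹' {Y | Y (blockT (-l) m Y) = w} ∩
          Prod.map id ((nextB (-l))^[m]) ⁻¹' C (z + w)) =
        pT μ (-l) m w * ν.prod ν' (C (z + w))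
      rw [Measure.prod_apply ((measurable_snd hBm).inter ((measurable_id.prodMap hit) hCm)),
        Measure.prod_apply hCm, ← lintegral_const_mul _ (measurable_measure_prodMk_left hCm)]
      refine lintegral_congr fun X => ?_
      have hA : BlockEvent (-l) m {Y : ℕ → Site d | Y (blockT (-l) m Y) = w} := by
        refine ⟨hBm, fun X Y hT h => ?_⟩
        show X (blockT (-l) m X) = w ↔ Y (blockT (-l) m Y) = w
        rw [← hT, h _ le_rfl]
      have hSm : MeasurableSet (Prod.mk X ⁻¹' C (z + w)) := measurable_prodMk_left hCm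
      refine (inter_displ μ hs hq hA hSm).trans ?_
      rw [Measure.restrict_apply' measurableSet_Good, Measure.restrict_apply' measurableSet_Good,
        pT, Set.inter_comm _ (Good (-l)), Set.inter_comm (Good (-l)) (Prod.mk X ⁻¹' _)]
      simp only [div_eq_mul_inv]
      ring
    · rw [dot_add]; simp only [dot_negl] at hw; linarith [hw.1]
    · rw [dot_add]; simp only [dot_negl] at hw; linarith [hw.2]
  refine le_trans (measure_mono_ae (t := Prod.snd ⁻¹' {Y | D < dot (-l) (Y (blockT (-l) m Y))} ∪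
    ⋃ w, E w) ?_) ((measure_union_le _ _).trans (add_le_add ?_ ?_))
  · filter_upwards [(Measure.quasiMeasurePreserving_snd (μ := ν) (ν := ν')).ae
      ((ae_iterate_good μ hμ hq0).and (ae_restrict_mem measurableSet_Good))] with q hq' hm
    by_cases hw : D < dot (-l) (q.2 (blockT (-l) m q.2))
    · exact Or.inl hw
    push Not at hw
    have hR := (reg_blockT hq'.1.1 hq'.1.2 m).1
    set T := blockT (-l) m q.2
    have hwp : 0 ≤ dot (-l) (q.2 T) := by
      have h := hq'.2.1 T
      rwa [hq'.1.1, dot_zero] at h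
    obtain ⟨i, -, hwin, k, hk⟩ := hm
    simp only at hk
    have hkT : T ≤ k := by
      by_contra hc
      have h1 := hR.1 k (not_le.1 hc)
      have h2 := hwin.2 i le_rfl
      rw [hk, dot_add] at h2
      simp only [dot_negl] at h1 hw
      linarith
    refine Or.inr (Set.mem_iUnion.2 ⟨q.2 T, ?_⟩)
    simp only [E, hw, hwp, and_self, if_true]
    refine ⟨rfl, i, trivial, hwin, k - T, ?_⟩
    show q.1 i = ((nextB (-l))^[m] q.2) (k - T) + (z + q.2 T)
    rw [iterate_nextB_apply m _ q.2 hq'.1.1, Nat.add_sub_cancel' hkT, hk]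
    abel
  · rw [← Set.univ_prod, pairLaw, Measure.prod_prod, Measure.restrict_apply_univ]
    exact mul_le_of_le_one_left' prob_le_one
  · refine (measure_iUnion_le _).trans ((ENNReal.tsum_le_tsum hEle).trans ?_)
    rw [ENNReal.tsum_mul_right]
    exact mul_le_of_le_one_left' (tsum_pT_le_one μ m)

/-- The lower half of a stack, seen from a stack twice as high. -/
theorem low_subset (hμ : ∀ᵐ p ∂μ, (∀ e, 0 < p e) ∧ ∑ e, p e = 1) (hq : annM μ (Good l) ≠ 0)
    {N M : ℕ} (hM : N + N / 2 ≤ M) (a b : ℝ) :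
    pairLaw μ l (Low l N) ≤
      (annM μ).restrict (Good l) {X | dot l (X (blockT l N X)) < a} +
        (annM μ).restrict (Good l) {X | b < dot l (X (blockT l (N + N / 2) X))} +
        pairLaw μ l (Visit l a b (fun i X => i < blockT l M X) fun X => X (blockT l (N + N) X)) := by
  set ν := (annM μ).restrict (Good l) with hν
  set ν' := (annM μ).restrict (Good (-l)) with hν'
  have hq0 : ann μ (Good l) ≠ 0 := by rwa [ann_eq μ measurableSet_Good]
  have hLow : MeasurableSet (Low (d := d) l N) := by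
    rw [show Low (d := d) l N = ⋃ i, ⋃ k, Prod.fst ⁻¹' {X | i < blockT l (N / 2) X} ∩
        {q : (ℕ → Site d) × (ℕ → Site d) | q.1 i - q.1 (blockT l N q.1) = q.2 k} by ext; simp [Low]]
    exact MeasurableSet.iUnion fun i => MeasurableSet.iUnion fun k =>
      (measurable_fst (measurableSet_lt measurable_const (measurable_blockT _))).inter
        (measurableSet_eq_fun (((measurable_pi_apply i).comp measurable_fst).sub
          ((measurable_endPt l N).comp measurable_fst)) ((measurable_pi_apply k).comp measurable_snd))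
  have hmp : MeasurePreserving (Prod.map ((nextB l)^[N]) id) (ν.prod ν') (ν.prod ν') :=
    ((measurePreserving_nextB μ hμ hq0).iterate N).prod (MeasurePreserving.id ν')
  rw [pairLaw, ← hmp.measure_preimage hLow.nullMeasurableSet]
  refine le_trans (measure_mono_ae (t := (Prod.fst ⁻¹' {X | dot l (X (blockT l N X)) < a} ∪
    Prod.fst ⁻¹' {X | b < dot l (X (blockT l (N + N / 2) X))}) ∪
    Visit l a b (fun i X => i < blockT l M X) fun X => X (blockT l (N + N) X)) ?_)
    ((measure_union_le _ _).trans (add_le_add ((measure_union_le _ _).trans (add_le_add ?_ ?_))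
      le_rfl))
  swap
  · rw [← Set.prod_univ, Measure.prod_prod, Measure.restrict_apply_univ]
    exact mul_le_of_le_one_right' prob_le_one
  swap
  · rw [← Set.prod_univ, Measure.prod_prod, Measure.restrict_apply_univ]
    exact mul_le_of_le_one_right' prob_le_one
  filter_upwards [(Measure.quasiMeasurePreserving_fst (μ := ν) (ν := ν')).ae
    (ae_iterate_good μ hμ hq0)] with q hq' hm
  obtain ⟨i, hi, k, hk⟩ := hm
  simp only [Prod.map_fst, Prod.map_snd, id_eq] at hi hk
  by_cases h1 : dot l (q.1 (blockT l N q.1)) < a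
  · exact Or.inl (Or.inl h1)
  by_cases h2 : b < dot l (q.1 (blockT l (N + N / 2) q.1))
  · exact Or.inl (Or.inr h2)
  push Not at h1 h2
  have hR := reg_blockT hq'.1 hq'.2
  have hmono : Monotone fun m => blockT l m q.1 :=
    (strictMono_nat_of_lt_succ fun m => (hR m).2).monotone
  have hlt : blockT l N q.1 + i < blockT l (N + N / 2) q.1 := by rw [blockT_add]; omega
  refine Or.inr ⟨blockT l N q.1 + i, hlt.trans_le (hmono hM), ⟨h1.trans ?_, fun j hj => ?_⟩, k, ?_⟩
  · have h := (hR N).1.2.1 i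
    simpa [shiftP] using h
  · exact ((hR (N + N / 2)).1.1 j (lt_of_le_of_lt hj hlt)).le.trans h2
  · rw [iterate_nextB_apply N _ q.1 hq'.1, iterate_nextB_apply N _ q.1 hq'.1, ← blockT_add] at hk
    simp only
    rw [← hk]
    abel

/-- The chance to get `K` ahead but not far vanishes along growing scales. -/
lemma tendsto_reach_sub (l' : Fin d → ℝ) {K H : ℕ → ℝ} (hK : Tendsto K atTop atTop)
    (hH : Tendsto H atTop atTop) :
    Tendsto (fun P => ann μ (Reach0 l' (K P)) - ann μ (Pass0 l' (H P))) atTop (𝓝 0) := by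
  set f : ℝ → ℝ≥0∞ := fun s => ann μ (Reach0 l' s)
  have hf : Antitone f := fun s t hst =>
    lintegral_mono fun ω => measure_mono fun X ⟨n, h1, h2⟩ => ⟨n, hst.trans h1, h2⟩
  have hlim := tendsto_atTop_iInf hf
  set L := ⨅ s, f s
  have hL : L ≠ ⊤ := by
    refine ne_top_of_le_ne_top ENNReal.one_ne_top ((iInf_le f 0).trans ?_)
    exact (lintegral_mono fun ω => prob_le_one).trans_eq (by simp)
  have h1 := hlim.comp hK
  have h2 := hlim.comp (tendsto_atTop_add_const_right atTop (1 : ℝ) hH)
  have h3 : Tendsto (fun P => f (K P) - f (H P + 1)) atTop (𝓝 (L - L)) :=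
    ENNReal.Tendsto.sub h1 h2 (Or.inl hL)
  rw [tsub_self] at h3
  refine tendsto_of_tendsto_of_tendsto_of_le_of_le tendsto_const_nhds h3 (fun P => bot_le)
    fun P => tsub_le_tsub_left ?_ _
  exact lintegral_mono fun ω => measure_mono fun X ⟨n, h1, h2⟩ =>
    ⟨n, lt_of_lt_of_le (lt_add_one _) h1, h2⟩

/-- A tail of a finite mean. -/
lemma tendsto_tail (hq : annM μ (Good l) ≠ 0) (hμ : ∀ᵐ p ∂μ, (∀ e, 0 < p e) ∧ ∑ e, p e = 1)
    {K : ℕ → ℝ} (hK : Tendsto K atTop atTop) :
    Tendsto (fun P => ENNReal.ofReal (K P) * (annM μ).restrict (Good l) {Y | K P ≤ blockH l Y})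
      atTop (𝓝 0) := by
  set ν := (annM μ).restrict (Good l)
  set g : ℕ → (ℕ → Site d) → ℝ≥0∞ := fun P =>
    {Y | K P ≤ blockH l Y}.indicator fun Y => ENNReal.ofReal (blockH l Y)
  have hms : ∀ P, MeasurableSet {Y : ℕ → Site d | K P ≤ blockH l Y} := fun P =>
    measurableSet_le measurable_const measurable_blockH
  have hg : ∀ P, Measurable (g P) := fun P =>
    (measurable_blockH.ennreal_ofReal).indicator (hms P)
  have hint : ∫⁻ Y, ENNReal.ofReal (blockH l Y) ∂ν ≠ ⊤ :=
    heightPin μ hμ (by rwa [ann_eq μ measurableSet_Good])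
  have h : Tendsto (fun P => ∫⁻ Y, g P Y ∂ν) atTop (𝓝 (∫⁻ Y, (0 : ℝ≥0∞) ∂ν)) := by
    refine tendsto_lintegral_of_dominated_convergence _ hg
      (fun P => Eventually.of_forall fun Y => Set.indicator_le_self _ _ Y) hint
      (Eventually.of_forall fun Y => ?_)
    refine tendsto_const_nhds.congr' ?_
    filter_upwards [hK.eventually_gt_atTop (blockH l Y)] with P hP
    simp [g, not_le.2 hP]
  rw [lintegral_zero] at h
  refine tendsto_of_tendsto_of_tendsto_of_le_of_le tendsto_const_nhds h (fun P => bot_le)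
    fun P => ?_
  show _ ≤ ∫⁻ Y, g P Y ∂ν
  rw [lintegral_indicator (hms P), ← setLIntegral_const]
  exact setLIntegral_mono measurable_blockH.ennreal_ofReal fun Y hY => ENNReal.ofReal_le_ofReal hY

end LowAux

open LowAux

variable [Nonempty (Fin d)] (μ : Measure (Step d → ℝ)) [IsProbabilityMeasure μ] {l : Fin d → ℝ}

/-- **Meeting the lower half of the blocks.** -/
theorem lowPin (hμ : ∀ᵐ p ∂μ, (∀ e, 0 < p e) ∧ ∑ e, p e = 1) (hs : SplitPin μ l)
    (hs' : SplitPin μ (-l)) (hw : WllnPin μ l) (hw' : WllnPin μ (-l)) : LowPin μ l := by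
  intro hq hq' η L hη hL
  obtain ⟨ν₁, hν₁, hW⟩ := hw hq
  obtain ⟨ν₂, hν₂, hW'⟩ := hw' hq'
  set N : ℕ → ℕ := fun P => 2 ^ P with hN
  set s : ℕ → ℝ := fun P => ν₁ * N P with hs0
  have hN' : Tendsto N atTop atTop := tendsto_pow_atTop_atTop_of_one_lt one_lt_two
  have hsT : Tendsto s atTop atTop :=
    (tendsto_natCast_atTop_atTop.comp hN').const_mul_atTop hν₁
  set m : ℕ → ℕ := fun P => ⌊s P / (8 * ν₂)⌋₊
  have hm : Tendsto m atTop atTop :=
    tendsto_nat_floor_atTop.comp (hsT.atTop_div_const (by positivity))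
  obtain ⟨c, hc⟩ := exists_nat_gt (8 * ν₁ / ν₂)
  have hc0 : 0 < c := Nat.cast_pos.1 (lt_of_le_of_lt (div_nonneg (by linarith) hν₂.le) hc)
  have hNc : Tendsto (fun P => c * N P) atTop atTop :=
    tendsto_atTop_mono (fun P => Nat.le_mul_of_pos_left _ hc0) hN'
  -- the bad events
  set Dev : (Fin d → ℝ) → ℝ → ℝ → ℕ → ℝ≥0∞ := fun l' ν₀ δ k =>
    annM μ (Good l' ∩ {X | δ * k < |dot l' (X (blockT l' k X)) - ν₀ * k|}) with hDev
  set ρ : ℕ → ℝ≥0∞ := fun P =>
    2 * (ann μ (Reach0 l (s P / 16)) - ann μ (Pass0 l (3 * s P))) +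
      2 * (ann μ (Reach0 (-l) (s P / 16)) - ann μ (Pass0 (-l) (3 * s P))) +
      (Dev (-l) ν₂ (ν₂ / 2) (c * N P) +
        ENNReal.ofReal (16 * c / ν₁) * (ENNReal.ofReal (s P / 16) *
          (annM μ).restrict (Good (-l)) {Y | s P / 16 ≤ blockH (-l) Y}))
  set Alt : ℕ → ℝ≥0∞ := fun P =>
    Dev l ν₁ (ν₁ / 32) (N P + N P) * (annM μ (Good l))⁻¹ + (Dev (-l) ν₂ (ν₂ / 2) (m P) + ρ P)
  set S : ℕ → ℝ≥0∞ := fun P =>
    Dev l ν₁ (ν₁ / 8) (N P) + Dev l ν₁ (ν₁ / 24) (N P + N P / 2) +
      ENNReal.ofReal (Real.exp L) * Alt P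
  have hDevW : ∀ {δ : ℝ} {k : ℕ → ℕ}, 0 < δ → Tendsto k atTop atTop →
      Tendsto (fun P => Dev l ν₁ δ (k P)) atTop (𝓝 0) := fun hδ hk => (hW _ hδ).comp hk
  have hDevW' : ∀ {δ : ℝ} {k : ℕ → ℕ}, 0 < δ → Tendsto k atTop atTop →
      Tendsto (fun P => Dev (-l) ν₂ δ (k P)) atTop (𝓝 0) := fun hδ hk => (hW' _ hδ).comp hk
  have hρ : Tendsto ρ atTop (𝓝 0) := by
    have h16 : Tendsto (fun P => s P / 16) atTop atTop := hsT.atTop_div_const (by norm_num)
    have h3 : Tendsto (fun P => 3 * s P) atTop atTop := hsT.const_mul_atTop (by norm_num)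
    have t1 := ENNReal.Tendsto.const_mul (a := (2 : ℝ≥0∞)) (tendsto_reach_sub μ l h16 h3)
      (Or.inr ENNReal.ofNat_ne_top)
    have t2 := ENNReal.Tendsto.const_mul (a := (2 : ℝ≥0∞)) (tendsto_reach_sub μ (-l) h16 h3)
      (Or.inr ENNReal.ofNat_ne_top)
    have t3 := ENNReal.Tendsto.const_mul (a := ENNReal.ofReal (16 * c / ν₁))
      (tendsto_tail μ hq' hμ h16) (Or.inr ENNReal.ofReal_ne_top)
    have := (t1.add t2).add ((hDevW' (half_pos hν₂) hNc).add t3)
    simpa only [mul_zero, add_zero] using this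
  have hS : Tendsto S atTop (𝓝 0) := by
    have a1 := hDevW (δ := ν₁ / 8) (by positivity) hN'
    have a2 := hDevW (δ := ν₁ / 24) (k := fun P => N P + N P / 2) (by positivity)
      (tendsto_atTop_mono (fun P => Nat.le_add_right _ _) hN')
    have a3 := ENNReal.Tendsto.mul_const (b := (annM μ (Good l))⁻¹)
      (hDevW (δ := ν₁ / 32) (k := fun P => N P + N P) (by positivity)
        (tendsto_atTop_mono (fun P => Nat.le_add_right _ _) hN')) (Or.inr (by simpa using hq))
    have a4 := hDevW' (δ := ν₂ / 2) (k := m) (half_pos hν₂) hm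
    have := (a1.add a2).add (ENNReal.Tendsto.const_mul (a := ENNReal.ofReal (Real.exp L))
      (a3.add (a4.add hρ)) (Or.inr ENNReal.ofReal_ne_top))
    simpa only [mul_zero, zero_mul, add_zero] using this
  have hdev : ∀ (l' : Fin d → ℝ) (ν₀ δ : ℝ) (k : ℕ) (p : ℝ → Prop),
      (∀ x, p x → δ * k < |x - ν₀ * k|) →
      (annM μ).restrict (Good l') {X | p (dot l' (X (blockT l' k X)))} ≤ Dev l' ν₀ δ k := by
    intro l' ν₀ δ k p hp
    rw [Measure.restrict_apply' measurableSet_Good]
    exact measure_mono fun X hX => ⟨hX.2, hp _ hX.1⟩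
  filter_upwards [(ENNReal.tendsto_nhds_zero.1 hS) (ENNReal.ofReal η) (ENNReal.ofReal_pos.2 hη),
    eventually_ge_atTop 3] with P hP hP3
  have hN8 : ∃ r, N P = 8 * r := ⟨2 ^ (P - 3), by
    show 2 ^ P = _
    rw [show (8 : ℕ) = 2 ^ 3 by norm_num, ← pow_add, Nat.add_sub_cancel' hP3]⟩
  obtain ⟨r, hr⟩ := hN8
  have hNP : (0 : ℝ) < N P := by
    have : 0 < N P := pow_pos (by norm_num) P
    exact_mod_cast this
  have hsP : 0 < s P := mul_pos hν₁ hNP
  set a := 3 / 4 * s P
  set b := 13 / 8 * s P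
  have hsdef : s P = ν₁ * N P := rfl
  -- the alternative law
  have halt : (∑' z, pT μ l (N P + N P) z *
      pairLaw μ l (Visit l a b (fun _ _ => True) fun _ => z)) ≤ Alt P := by
    set bad : Set (Site d) :=
      {z | ν₁ / 32 * ((N P + N P : ℕ) : ℝ) < |dot l z - ν₁ * ((N P + N P : ℕ) : ℝ)|}
    have hgood : ∀ z ∉ bad, pairLaw μ l (Visit l a b (fun _ _ => True) fun _ => z) ≤
        Dev (-l) ν₂ (ν₂ / 2) (m P) + ρ P := by
      intro z hz
      simp only [bad, Set.mem_ofPred_eq, not_lt, Nat.cast_add, abs_le] at hz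
      refine (shift_second μ hμ hs' hq' (m P) z (D := 3 / 16 * s P)
        (B := ρ P) (by simp only [b]; rw [hsdef]; nlinarith [hz.1]) fun y hy1 hy2 => ?_).trans
        (add_le_add ?_ le_rfl)
      · refine (strip_bound μ hμ y (K := s P / 16) (H := 3 * s P) (by positivity)
          (by simp only [a]; linarith) (by simp only [a, b]; linarith)
          (by simp only [b]; rw [hsdef]; nlinarith [hz.1]) (by rw [hsdef]; nlinarith [hz.2])).trans
          (add_le_add le_rfl ((dip_le μ hμ hq' (c * N P) (by positivity)).trans (add_le_add ?_ ?_)))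
        · refine hdev (-l) ν₂ (ν₂ / 2) _ (fun x => x ≤ 3 * s P) fun x hx => ?_
          have h1 : 8 * ν₁ < ν₂ * c := by
            rw [div_lt_iff₀ hν₂] at hc; linarith
          rw [Nat.cast_mul]
          refine lt_of_lt_of_le ?_ (neg_le_abs _)
          rw [hsdef] at hx
          nlinarith [mul_lt_mul_of_pos_right h1 hNP]
        · rw [← mul_assoc, ← ENNReal.ofReal_mul (by positivity)]
          refine le_of_eq (congrArg (· * _) ?_)
          rw [← ENNReal.ofReal_natCast]
          congr 1
          rw [Nat.cast_mul, hsdef]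
          field_simp
      · refine hdev (-l) ν₂ (ν₂ / 2) _ (fun x => 3 / 16 * s P < x) fun x hx => ?_
        have h1 : (m P : ℝ) ≤ s P / (8 * ν₂) := Nat.floor_le (by positivity)
        rw [le_div_iff₀ (by positivity)] at h1
        refine lt_of_lt_of_le ?_ (le_abs_self _)
        nlinarith
    calc ∑' z, pT μ l (N P + N P) z * pairLaw μ l (Visit l a b (fun _ _ => True) fun _ => z)
        ≤ ∑' z, (pT μ l (N P + N P) z * bad.indicator 1 z +
            pT μ l (N P + N P) z * (Dev (-l) ν₂ (ν₂ / 2) (m P) + ρ P)) := by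
          refine ENNReal.tsum_le_tsum fun z => ?_
          rw [← mul_add]
          refine mul_le_mul_right ?_ _
          by_cases hz : z ∈ bad
          · rw [Set.indicator_of_mem hz]
            exact le_add_right (pairLaw_le_one μ _)
          · exact le_add_left (hgood z hz)
      _ ≤ Alt P := by
          rw [ENNReal.tsum_add, ENNReal.tsum_mul_right, tsum_pT μ]
          refine add_le_add ?_ (mul_le_of_le_one_left' (tsum_pT_le_one μ _))
          rw [div_eq_mul_inv]
          refine mul_le_mul_left ?_ _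
          rw [show (fun X : ℕ → Site d => bad.indicator (1 : Site d → ℝ≥0∞)
              (X (blockT l (N P + N P) X))) =
              ((fun X : ℕ → Site d => X (blockT l (N P + N P) X)) ⁻¹' bad).indicator 1 from rfl,
            lintegral_indicator_one (measurable_endPt l _ MeasurableSet.of_discrete)]
          exact hdev l ν₁ (ν₁ / 32) (N P + N P) (fun x => ν₁ / 32 * ((N P + N P : ℕ) : ℝ) <
            |x - ν₁ * ((N P + N P : ℕ) : ℝ)|) fun x hx => hx
  have h8 : N P + N P - N P / 8 + N P / 8 = N P + N P := by omega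
  refine (low_subset μ hμ hq (N := N P) (M := N P + N P - N P / 8) (by omega) a b).trans ?_
  refine (add_le_add le_rfl (resample μ hμ hs hq (T := N P / 8) h8 a b hL)).trans ?_
  rw [← add_assoc, show N P + N P = 2 * 2 ^ P from (two_mul _).symm]
  refine add_le_add (le_trans ?_ hP) le_rfl
  refine add_le_add (add_le_add ?_ ?_) (mul_le_mul_right (le_of_eq_of_le ?_ halt) _)
  · refine hdev l ν₁ (ν₁ / 8) _ (fun x => x < a) fun x hx => lt_of_lt_of_le ?_ (neg_le_abs _)
    simp only [a] at hx
    rw [hsdef] at hx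
    nlinarith
  · refine hdev l ν₁ (ν₁ / 24) _ (fun x => b < x) fun x hx => lt_of_lt_of_le ?_ (le_abs_self _)
    simp only [b] at hx
    rw [hsdef] at hx
    have : ((N P + N P / 2 : ℕ) : ℝ) ≤ 3 / 2 * N P := by
      rw [hr, show 8 * r / 2 = 4 * r by omega]; push_cast; linarith
    nlinarith
  · rw [two_mul]

end Vale.Agent.P147.Flip.Full
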