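import Vale.Agent.P147.Flip.Full.Pins
import Vale.Agent.P147.Flip.OneSided

/-!
# The one-sided part

Without escape against the direction, escape along it is certain or impossible.
-/

namespace Vale.Agent.P147.Flip.Full

open MeasureTheory Vale.Agent.P147.Balanced Vale.Agent.P147.Linear Vale.Agent.P147.Flip

variable {d : ℕ} [Nonempty (Fin d)] {l : Fin d → ℝ}

theorem oneSidedPin (μ : Measure (Step d → ℝ)) [IsProbabilityMeasure μ]
    (hμ : ∀ᵐ p ∂μ, (∀ e, 0 < p e) ∧ ∑ e, p e = 1) : OneSidedPin μ l :=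
  oneSided μ hμ

end Vale.Agent.P147.Flip.Full
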