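import Vale.Agent.P147.Flip.Full.Pins
import Vale.Agent.P147.Flip.Height
import Vale.Agent.P147.Flip.Disjoint

/-!
# The blocks are independent: splitting, Laplace transform and law of large numbers
-/

namespace Vale.Agent.P147.Flip.Full

open MeasureTheory ProbabilityTheory Filter Topology Set Vale.Agent.P147.Balanced Vale.Agent.P147.Linear
  Vale.Agent.P147.Flip
open scoped ENNReal

variable {d : ℕ} {l : Fin d → ℝ}

/-- A path from the origin all whose blocks are regular. -/
def Regular (l : Fin d → ℝ) : Set (ℕ → Site d) :=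
  {X | X 0 = 0 ∧ ∀ i, (nextB l)^[i] X ∈ Good l ∧
    FirstReg l (firstT l ((nextB l)^[i] X)) ((nextB l)^[i] X)}

/-- The finite path, followed by `Y`. -/
def glueB (n : ℕ) (a : Fin (n + 1) → Site d) (Y : ℕ → Site d) : ℕ → Site d :=
  fun i => if i ≤ n then ext a i else ext a n + Y (i - n)

lemma measurable_glueB (n : ℕ) (a : Fin (n + 1) → Site d) : Measurable (glueB n a) := by
  refine measurable_pi_lambda _ fun i => ?_
  unfold glueB
  split_ifs
  · exact measurable_const
  · exact (measurable_pi_apply (i - n)).const_add _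

lemma glueB_split (X : ℕ → Site d) :
    glueB (firstT l X) (res (firstT l X) X) (nextB l X) = X := by
  funext i
  simp only [glueB, ext_res_apply le_rfl]
  split_ifs with h
  · exact ext_res_apply h X
  · simp [nextB, Nat.add_sub_cancel' (not_le.1 h).le]

lemma block_glueB {n : ℕ} {a : Fin (n + 1) → Site d} (hb : Block l n (ext a)) {Y : ℕ → Site d}
    (hY : Y ∈ Regular l) :
    firstT l (glueB n a Y) = n ∧ nextB l (glueB n a Y) = Y ∧ glueB n a Y ∈ Regular l := by
  have hs : ∀ i, glueB n a Y (n + i) = ext a n + Y i := fun i => by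
    rcases Nat.eq_zero_or_pos i with rfl | hi
    · simp [glueB, hY.1]
    · simp [glueB, Nat.not_le.2 (Nat.lt_add_of_pos_right hi)]
  have hgood : shiftP n (glueB n a Y) ∈ Good l := by
    have h : shiftP n (glueB n a Y) = fun i => Y i + ext a n := funext fun i => by
      simp [shiftP, hs, add_comm]
    rw [h, ← Set.mem_preimage (f := fun (Z : ℕ → Site d) i => Z i + ext a n),
      translate_preimage_Good]
    simpa using (hY.2 0).1
  obtain ⟨hg, hf⟩ := (good_iff_block (X := glueB n a Y) (γ := ext a)
    (fun i hi => by simp [glueB, hi]) hb.2.1).2 ⟨hb, hgood⟩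
  have ht := firstT_eq hf
  have hn : nextB l (glueB n a Y) = Y := funext fun i => by
    simp only [nextB, ht]
    rw [hs, show glueB n a Y n = ext a n by simp [glueB]]
    abel
  refine ⟨ht, hn, by simp [glueB, hb.2.1], fun i => ?_⟩
  cases i with
  | zero => exact ⟨hg, by simpa [ht] using hf⟩
  | succ i => simpa [Function.iterate_succ_apply, hn] using hY.2 i

variable [Nonempty (Fin d)] (μ : Measure (Step d → ℝ)) [IsProbabilityMeasure μ]

lemma good_ann_ne (h : annM μ (Good l) ≠ 0) : ann μ (Good l) ≠ 0 := by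
  rwa [ann_eq μ measurableSet_Good]

open Classical in
/-- Splitting the mass of an event along the first block. -/
theorem annM_good_split (hμ : ∀ᵐ p ∂μ, (∀ e, 0 < p e) ∧ ∑ e, p e = 1) (hq : annM μ (Good l) ≠ 0)
    {S : Set (ℕ → Site d)} (hS : MeasurableSet S) :
    annM μ (Good l ∩ S) = ∑' n, ∑' a : Fin (n + 1) → Site d,
      if Block l n (ext a) then wt μ n a * annM μ (Good l ∩ glueB n a ⁻¹' S) else 0 := by
  rw [Set.inter_comm, ← Measure.restrict_apply hS, ← lintegral_indicator_one hS,
    lintegral_congr (g := fun X => (glueB (firstT l X) (res _ X) ⁻¹' S).indicator 1 (nextB l X))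
      fun X => by
        conv_lhs => rw [← glueB_split (l := l) X]
        rfl,
    lintegral_split μ hμ (good_ann_ne μ hq) (F := fun n a Y => (glueB n a ⁻¹' S).indicator 1 Y)
      fun n a => measurable_one.indicator (measurable_glueB n a hS)]
  refine tsum_congr fun n => tsum_congr fun a => ?_
  rw [lintegral_indicator_one (measurable_glueB n a hS),
    Measure.restrict_apply (measurable_glueB n a hS), Set.inter_comm]

/-- The blocks after the first `k` are independent of them. -/
theorem split_blocks (hμ : ∀ᵐ p ∂μ, (∀ e, 0 < p e) ∧ ∑ e, p e = 1) (hq : annM μ (Good l) ≠ 0)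
    {B : Set (ℕ → Site d)} (hB : MeasurableSet B) :
    ∀ (k : ℕ) (A : Set (ℕ → Site d)), MeasurableSet A →
      (∀ X ∈ Regular l, ∀ Y ∈ Regular l, blockT l k X = blockT l k Y →
        (∀ i ≤ blockT l k X, X i = Y i) → (X ∈ A ↔ Y ∈ A)) →
      annM μ (Good l ∩ A ∩ (nextB l)^[k] ⁻¹' B) * annM μ (Good l) =
        annM μ (Good l ∩ A) * annM μ (Good l ∩ B) := by
  have hreg : ∀ᵐ X ∂(annM μ).restrict (Good l), X ∈ Regular l :=
    ae_iterate_good μ hμ (good_ann_ne μ hq)
  have hae : ∀ {S T : Set (ℕ → Site d)}, (∀ X ∈ Regular l, (X ∈ S ↔ X ∈ T)) →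
      annM μ (Good l ∩ S) = annM μ (Good l ∩ T) := fun {S T} h => measure_congr <| by
    filter_upwards [(ae_restrict_iff' measurableSet_Good).1 hreg] with X hX
    exact propext ⟨fun h' => ⟨h'.1, (h X (hX h'.1)).1 h'.2⟩,
      fun h' => ⟨h'.1, (h X (hX h'.1)).2 h'.2⟩⟩
  intro k
  induction k with
  | zero =>
    intro A _ hA
    have hc : ∀ X ∈ Regular l, ∀ Y ∈ Regular l, (X ∈ A ↔ Y ∈ A) := fun X hX Y hY =>
      hA X hX Y hY (by simp [blockT_zero]) fun i hi => by
        rw [blockT_zero] at hi
        rw [Nat.le_zero.1 hi, hX.1, hY.1]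
    simp only [Function.iterate_zero, Set.preimage_id]
    by_cases h : ∃ X ∈ Regular l, X ∈ A
    · obtain ⟨X₀, h₀, hA₀⟩ := h
      have e : ∀ S, annM μ (Good l ∩ (A ∩ S)) = annM μ (Good l ∩ S) := fun S =>
        hae fun X hX => ⟨fun h => h.2, fun h => ⟨(hc X₀ h₀ X hX).1 hA₀, h⟩⟩
      have e' := e Set.univ
      rw [Set.inter_univ, Set.inter_univ] at e'
      rw [Set.inter_assoc, e B, e', mul_comm]
    · have e : ∀ S, annM μ (Good l ∩ (A ∩ S)) = 0 := fun S => by
        rw [hae (T := ∅) fun X hX => ⟨fun h' => h ⟨X, hX, h'.1⟩, False.elim⟩]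
        simp
      have e' := e Set.univ
      rw [Set.inter_univ] at e'
      rw [Set.inter_assoc, e B, e', zero_mul, zero_mul]
  | succ k ih =>
    intro A hAm hA
    classical
    have hBk : MeasurableSet ((nextB l)^[k + 1] ⁻¹' B) := (measurable_nextB.iterate (k + 1)) hB
    rw [Set.inter_assoc, annM_good_split μ hμ hq (hAm.inter hBk), annM_good_split μ hμ hq hAm]
    simp only [← ENNReal.tsum_mul_right]
    refine tsum_congr fun n => tsum_congr fun a => ?_
    split_ifs with hb
    swap
    · simp
    rw [mul_assoc, mul_assoc, hae (S := glueB n a ⁻¹' (A ∩ (nextB l)^[k + 1] ⁻¹' B))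
      (T := glueB n a ⁻¹' A ∩ (nextB l)^[k] ⁻¹' B) fun Y hY => by
        simp [(block_glueB hb hY).2.1],
      ← Set.inter_assoc, ih _ (measurable_glueB n a hAm) ?_]
    intro Y hY Y' hY' hT hagree
    obtain ⟨t1, n1, r1⟩ := block_glueB hb hY
    obtain ⟨t2, n2, r2⟩ := block_glueB hb hY'
    refine hA _ r1 _ r2 (by rw [blockT_succ, blockT_succ, t1, n1, t2, n2, hT]) fun i hi => ?_
    rw [blockT_succ, t1, n1] at hi
    simp only [glueB]
    split_ifs with h
    · rfl
    · rw [hagree (i - n) (by omega)]

/-- The blocks after the first `k` are independent of them. -/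
theorem splitPin (hμ : ∀ᵐ p ∂μ, (∀ e, 0 < p e) ∧ ∑ e, p e = 1) : SplitPin μ l :=
  fun hq k A _ hA hB =>
    split_blocks μ hμ hq hB k A hA.1 fun X _ Y _ hT hag => hA.2 X Y hT hag

omit [Nonempty (Fin d)] in
lemma blockH_pos {X : ℕ → Site d} (h : X ∈ Regular l) : 0 < blockH l X := by
  have h0 : FirstReg l (firstT l X) X := by simpa using (h.2 0).2
  exact sub_pos.2 (h0.2.1.1 0 h0.1)

omit [Nonempty (Fin d)] in
lemma measurableSet_endHeight (m : ℕ) (s : ℝ) :
    MeasurableSet {X : ℕ → Site d | dot l (X (blockT l m X)) ≤ s} :=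
  measurableSet_le ((measurable_of_countable (dot l)).comp
    (measurable_apply_time (measurable_blockT m))) measurable_const

/-- The height of `m` blocks is exponentially unlikely to be small. -/
theorem laplacePin (hμ : ∀ᵐ p ∂μ, (∀ e, 0 < p e) ∧ ∑ e, p e = 1) : LaplacePin μ l := by
  classical
  intro hq
  have hqt : annM μ (Good l) ≠ ⊤ := measure_ne_top _ _
  set E : ℕ → ℝ≥0∞ := fun m =>
    ∫⁻ X in Good l, ENNReal.ofReal (Real.exp (-sumH l m X)) ∂annM μ
  have hE0 : E 0 = annM μ (Good l) := by simp [E, sumH]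
  set r : ℝ≥0∞ := ∑' n, ∑' a : Fin (n + 1) → Site d, if Block l n (ext a) then
    wt μ n a * ENNReal.ofReal (Real.exp (-(dot l (ext a n) - dot l (ext a 0)))) else 0
  have hm : ∀ m, Measurable fun X : ℕ → Site d => ENNReal.ofReal (Real.exp (-sumH l m X)) :=
    fun m => ENNReal.measurable_ofReal.comp (Real.measurable_exp.comp (measurable_sumH m).neg)
  have hstep : ∀ m, E (m + 1) = r * E m := fun m => by
    simp only [E]
    rw [lintegral_congr (g := fun X => ENNReal.ofReal (Real.exp
        (-(dot l (ext (res (firstT l X) X) (firstT l X)) - dot l (ext (res (firstT l X) X) 0)))) *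
        ENNReal.ofReal (Real.exp (-sumH l m (nextB l X)))) fun X => by
      rw [← ENNReal.ofReal_mul (Real.exp_pos _).le, ← Real.exp_add, ext_res_apply le_rfl,
        ext_res_apply (Nat.zero_le _)]
      simp only [sumH, Finset.sum_range_succ', Function.iterate_zero_apply,
        Function.iterate_succ_apply, blockH]
      ring_nf]
    rw [lintegral_split μ hμ (good_ann_ne μ hq) (F := fun n a Y =>
      ENNReal.ofReal (Real.exp (-(dot l (ext a n) - dot l (ext a 0)))) *
        ENNReal.ofReal (Real.exp (-sumH l m Y))) fun n a => (hm m).const_mul _]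
    simp only [r, ← ENNReal.tsum_mul_right]
    refine tsum_congr fun n => tsum_congr fun a => ?_
    rw [ite_mul, zero_mul, lintegral_const_mul _ (hm m), mul_assoc]
  have hr : r < 1 := by
    have h1 : E 1 < annM μ (Good l) := by
      calc E 1 < ∫⁻ _ in Good l, 1 ∂annM μ := by
            have hae : ∀ᵐ X ∂(annM μ).restrict (Good l),
                ENNReal.ofReal (Real.exp (-sumH l 1 X)) < 1 := by
              filter_upwards [ae_iterate_good μ hμ (good_ann_ne μ hq)] with X hX
              have h := blockH_pos (l := l) (X := X) hX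
              simp [sumH, ENNReal.ofReal_lt_one, Real.exp_lt_one_iff, h]
            refine lintegral_strict_mono ?_ measurable_const.aemeasurable ?_ hae
            · simpa [Measure.restrict_eq_zero] using hq
            · refine ne_top_of_le_ne_top (b := annM μ (Good l)) hqt ?_
              rw [← setLIntegral_one]
              exact lintegral_mono_ae (hae.mono fun X hX => hX.le)
        _ = _ := setLIntegral_one _
    rw [hstep 0, hE0] at h1
    by_contra hc
    exact absurd (le_mul_of_one_le_left' (not_lt.1 hc)) (not_le.2 h1)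
  have hE : ∀ m, E m ≤ r ^ m := by
    intro m
    induction m with
    | zero => rw [hE0, pow_zero]; exact prob_le_one
    | succ m ih =>
      rw [hstep, pow_succ']
      exact mul_le_mul_right ih r
  refine ⟨max r.toReal (1 / 2), lt_of_lt_of_le (by norm_num) (le_max_right _ _),
    max_lt ?_ (by norm_num), fun m s => ?_⟩
  · simpa using (ENNReal.toReal_lt_toReal hr.ne_top ENNReal.one_ne_top).2 hr
  calc annM μ (Good l ∩ {X | dot l (X (blockT l m X)) ≤ s})
      = ∫⁻ X in Good l,
          {X | dot l (X (blockT l m X)) ≤ s}.indicator (1 : (ℕ → Site d) → ℝ≥0∞) X ∂annM μ := by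
        rw [lintegral_indicator_one (measurableSet_endHeight m s),
          Measure.restrict_apply (measurableSet_endHeight m s), Set.inter_comm]
    _ ≤ ∫⁻ X in Good l,
          ENNReal.ofReal (Real.exp s) * ENNReal.ofReal (Real.exp (-sumH l m X)) ∂annM μ := by
        refine lintegral_mono_ae ?_
        filter_upwards [ae_restrict_of_ae (ae_annM_zero μ)] with X h0
        by_cases hX : X ∈ {X | dot l (X (blockT l m X)) ≤ s}
        · rw [Set.indicator_of_mem hX, Pi.one_apply, ← ENNReal.ofReal_mul (Real.exp_pos _).le,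
            ← Real.exp_add, ENNReal.one_le_ofReal, Real.one_le_exp_iff]
          rw [Set.mem_ofPred_eq, ← sumH_eq m X h0] at hX
          linarith
        · rw [Set.indicator_of_notMem hX]
          exact zero_le
    _ = ENNReal.ofReal (Real.exp s) * E m := lintegral_const_mul _ (hm m)
    _ ≤ ENNReal.ofReal (Real.exp s) * ENNReal.ofReal (max r.toReal (1 / 2)) ^ m := by
        refine mul_le_mul_right ((hE m).trans (pow_le_pow_left' ?_ m)) _
        rw [← ENNReal.ofReal_toReal hr.ne_top]
        exact ENNReal.ofReal_le_ofReal (by simp [ENNReal.toReal_ofReal])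
    _ = _ := by
        rw [← ENNReal.ofReal_pow (le_max_of_le_right (by norm_num)),
          ← ENNReal.ofReal_mul (Real.exp_pos _).le]

/-- The weak law of large numbers for the heights of the blocks. -/
theorem wllnPin (hμ : ∀ᵐ p ∂μ, (∀ e, 0 < p e) ∧ ∑ e, p e = 1) : WllnPin μ l := by
  intro hq
  have hq' := good_ann_ne μ hq
  set ν := (annM μ).restrict (Good l) with hν
  set c : ℝ≥0∞ := annM μ (Good l) with hc
  set P : Measure (ℕ → Site d) := c⁻¹ • ν with hP
  have hct : c ≠ ⊤ := measure_ne_top _ _
  have hPp : IsProbabilityMeasure P := ⟨by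
    simp [hP, hν, ← hc, ENNReal.inv_mul_cancel hq hct]⟩
  have haeP : ∀ {p : (ℕ → Site d) → Prop}, (∀ᵐ X ∂ν, p X) → ∀ᵐ X ∂P, p X :=
    fun h => Measure.ae_smul_measure h c⁻¹
  set Z : ℕ → (ℕ → Site d) → ℝ := fun i X => blockH l ((nextB l)^[i] X)
  have hZm : ∀ i, Measurable (Z i) := fun i => measurable_blockH.comp (measurable_nextB.iterate i)
  have hreg : ∀ᵐ X ∂ν, X ∈ Regular l := ae_iterate_good μ hμ hq'
  have hmp : ∀ i, MeasurePreserving ((nextB l)^[i]) ν ν :=
    fun i => (measurePreserving_nextB μ hμ hq').iterate i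
  have hint : Integrable (Z 0) P := by
    refine Integrable.smul_measure ⟨(hZm 0).aestronglyMeasurable, ?_⟩ (ENNReal.inv_ne_top.2 hq)
    rw [hasFiniteIntegral_iff_ofReal (f := Z 0) (hreg.mono fun X hX => (blockH_pos hX).le)]
    exact (heightPin μ hμ hq').lt_top
  have hident : ∀ i, IdentDistrib (Z i) (Z 0) P P := fun i => by
    refine ⟨(hZm i).aemeasurable, (hZm 0).aemeasurable, ?_⟩
    rw [Measure.map_smul, Measure.map_smul]
    congr 1
    calc ν.map (Z i) = (ν.map ((nextB l)^[i])).map (blockH l) :=
          (Measure.map_map measurable_blockH (measurable_nextB.iterate i)).symm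
      _ = _ := by rw [(hmp i).map_eq]; rfl
  have hindep : Pairwise (Function.onFun (fun f g => IndepFun f g P) Z) := by
    have hlt : ∀ i j, i < j → IndepFun (Z i) (Z j) P := by
      intro i j hij
      obtain ⟨k, rfl⟩ := Nat.exists_eq_add_of_lt hij
      rw [indepFun_iff_measure_inter_preimage_eq_mul]
      intro s t hs ht
      set B : Set (ℕ → Site d) := (fun X => blockH l ((nextB l)^[k] X)) ⁻¹' t
      have hBm : MeasurableSet B := (measurable_blockH.comp (measurable_nextB.iterate k)) ht
      have hA : MeasurableSet (blockH l ⁻¹' s : Set (ℕ → Site d)) := measurable_blockH hs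
      have e : Z i ⁻¹' s ∩ Z (i + k + 1) ⁻¹' t =
          (nextB l)^[i] ⁻¹' (blockH l ⁻¹' s ∩ (nextB l)^[1] ⁻¹' B) := by
        ext X
        simp only [Z, B, Set.mem_inter_iff, Set.mem_preimage, ← Function.iterate_add_apply]
        rw [show k + (1 + i) = i + k + 1 by omega]
      have e' : Z (i + k + 1) ⁻¹' t = (nextB l)^[1 + i] ⁻¹' B := by
        ext X
        simp only [Z, B, Set.mem_preimage, ← Function.iterate_add_apply]
        rw [show k + (1 + i) = i + k + 1 by omega]
      have h := split_blocks μ hμ hq hBm 1 _ hA fun X hX Y hY hT hag => by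
        have : ∀ X : ℕ → Site d, blockT l 1 X = firstT l X := fun X => by simp [blockT]
        rw [this, this] at hT
        simp only [Set.mem_preimage, blockH, hag 0 (Nat.zero_le _)]
        rw [hag _ (le_of_eq (this X).symm), hT]
      simp only [hP, Measure.smul_apply, smul_eq_mul]
      rw [e, e', show Z i ⁻¹' s = (nextB l)^[i] ⁻¹' (blockH l ⁻¹' s) from rfl, (hmp i).measure_preimage (hA.inter ((measurable_nextB.iterate 1) hBm)).nullMeasurableSet,
        (hmp i).measure_preimage hA.nullMeasurableSet,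
        (hmp (1 + i)).measure_preimage hBm.nullMeasurableSet]
      rw [hν, Measure.restrict_apply (hA.inter ((measurable_nextB.iterate 1) hBm)),
        Measure.restrict_apply hA, Measure.restrict_apply hBm, Set.inter_comm _ (Good l),
        Set.inter_comm _ (Good l), Set.inter_comm _ (Good l), ← Set.inter_assoc]
      have h2 : annM μ (Good l ∩ blockH l ⁻¹' s ∩ (nextB l)^[1] ⁻¹' B) =
          annM μ (Good l ∩ blockH l ⁻¹' s) * annM μ (Good l ∩ B) * c⁻¹ := by
        rw [← h, ← hc, mul_assoc, ENNReal.mul_inv_cancel hq hct, mul_one]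
      rw [h2]
      ring
    intro i j hij
    rcases lt_or_gt_of_ne hij with h | h
    · exact hlt i j h
    · exact (hlt j i h).symm
  have hpos : 0 < ∫ X, Z 0 X ∂P := by
    have h : ∀ᵐ X ∂P, 0 < Z 0 X := haeP (hreg.mono fun X hX => blockH_pos hX)
    rw [integral_pos_iff_support_of_nonneg_ae (h.mono fun X hX => hX.le) hint,
      measure_congr (show Function.support (Z 0) =ᵐ[P] (Set.univ : Set (ℕ → Site d)) by
        filter_upwards [h] with X hX
        exact propext ⟨fun _ => trivial, fun _ => hX.ne'⟩), measure_univ]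
    exact zero_lt_one
  refine ⟨∫ X, Z 0 X ∂P, hpos, fun δ hδ => ?_⟩
  set v := ∫ X, Z 0 X ∂P
  have hlim := strong_law_ae_real Z hint hindep hident
  have hsm : ∀ m, Measurable fun X : ℕ → Site d => (∑ i ∈ Finset.range m, Z i X) / m :=
    fun m => (Finset.measurable_sum _ fun i _ => hZm i).div_const _
  have hmeas := tendstoInMeasure_of_tendsto_ae (fun m => (hsm m).aestronglyMeasurable) hlim
  rw [tendstoInMeasure_iff_norm] at hmeas
  have h0 := ENNReal.Tendsto.const_mul (a := c) (hmeas δ hδ) (Or.inr hct)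
  rw [mul_zero] at h0
  refine tendsto_of_tendsto_of_tendsto_of_le_of_le' tendsto_const_nhds h0
    (Eventually.of_forall fun m => zero_le) ((eventually_gt_atTop 0).mono fun m hm => ?_)
  have hmR : (0 : ℝ) < m := Nat.cast_pos.2 hm
  have hT : MeasurableSet {X : ℕ → Site d | δ ≤ ‖(∑ i ∈ Finset.range m, Z i X) / m - v‖} :=
    measurableSet_le measurable_const ((hsm m).sub_const v).norm
  have hPS : ∀ S : Set (ℕ → Site d), P S = c⁻¹ * ν S := fun S => rfl
  rw [hPS, ← mul_assoc, ENNReal.mul_inv_cancel hq hct, one_mul]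
  refine le_trans (measure_mono_ae ?_) (le_of_eq (by
    rw [hν, Measure.restrict_apply hT, Set.inter_comm]))
  filter_upwards [ae_annM_zero μ] with X h0
  rintro ⟨hG, hX⟩
  refine ⟨hG, ?_⟩
  rw [Set.mem_ofPred_eq, ← sumH_eq m X h0] at hX
  rw [Set.mem_ofPred_eq, Real.norm_eq_abs,
    show (∑ i ∈ Finset.range m, Z i X) / (m : ℝ) - v = (sumH l m X - v * m) / m by
      simp only [sumH, Z]; field_simp,
    abs_div, Nat.abs_cast, le_div_iff₀ hmR]
  exact hX.le

end Vale.Agent.P147.Flip.Full
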